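import Crest.Agent.H0358.Int

set_option autoImplicit false
set_option linter.unusedSectionVars false
open Finset Function

namespace Crest.Agent.H0358

noncomputable section

def chi (w t i : ℕ) : ℝ := max 0 (w - |(i : ℝ) + w - t|)

def dl (w t i : ℕ) : ℝ := chi w t (i + 1) - chi w t i

def Kc (w t j : ℕ) (σ : ℂ) : ℂ := ∑ i ∈ range j, (dl w t i : ℝ) * Complex.exp (((0 : ℝ) - σ) * (i : ℝ))

def lev (ρ z : ℝ) : ℕ := ⌊Real.log (ρ / |z|)⌋₊

lemma chi_ne {w t i : ℕ} (h : chi w t i ≠ 0) : i < t ∧ t < i + 2 * w := by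
  have := abs_lt.1 (sub_pos.1 (lt_of_not_ge fun c => h (max_eq_left c)))
  constructor <;> rify <;> linarith [this.1, this.2]

lemma chi0 (w t i : ℕ) : 0 ≤ chi w t i := le_max_left _ _

lemma chi_le (w t i : ℕ) : chi w t i ≤ w := max_le (by positivity) (sub_le_self _ (abs_nonneg _))

lemma dl_le (w t i : ℕ) : |dl w t i| ≤ 1 := by
  rw [dl, chi, chi, max_comm, max_comm 0]
  refine (abs_max_sub_max_le_abs _ _ _).trans ?_
  rw [sub_sub_sub_cancel_left]
  refine (abs_abs_sub_abs_le_abs_sub _ _).trans_eq ?_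
  push_cast; ring_nf; simp

lemma sum_supp {f : ℕ → ℝ} {b : ℝ} (b0 : 0 ≤ b) (hb : ∀ t, f t ≤ b) {i n : ℕ} (h : ∀ t, f t ≠ 0 → t ∈ Ioc i (i + n))
    (m : ℕ) : ∑ t : Fin m, f t ≤ n * b := by
  classical
  rw [Fin.sum_univ_eq_sum_range, ← sum_filter_ne_zero]
  refine (sum_le_card_nsmul _ _ b fun t _ => hb t).trans ?_
  have := card_le_card (fun t ht => h t (mem_filter.1 ht).2 : {t ∈ range m | f t ≠ 0} ⊆ _)
  rw [Nat.card_Ioc, Nat.add_sub_cancel_left] at this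
  rw [nsmul_eq_mul]; gcongr

lemma dl_sum (w i m : ℕ) : ∑ t : Fin m, |dl w t i| ≤ 2 * w := by
  simpa using sum_supp (f := fun t => |dl w t i|) zero_le_one (fun t => dl_le w t i) (i := i) (n := 2 * w) (fun t h => by
    by_contra c
    have h1 : chi w t i = 0 := by by_contra d; have := chi_ne d; simp at c; omega
    have h2 : chi w t (i + 1) = 0 := by by_contra d; have := chi_ne d; simp at c; omega
    simp [dl, h1, h2] at h) m

lemma geo {δ : ℝ} (h : 0 < δ) : ∃ G, 0 ≤ G ∧ ∀ J j : ℕ, ∑ i ∈ range J, Real.exp (-δ * |(i : ℝ) - j|) ≤ G := by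
  have A : Summable fun n : ℕ => Real.exp (-δ * n) := by
    simpa only [mul_comm (-δ), Real.exp_nat_mul] using
      summable_geometric_of_lt_one (Real.exp_pos _).le (Real.exp_lt_one_iff.2 (neg_lt_zero.2 h))
  have B : Summable fun n : ℤ => Real.exp (-δ * |(n : ℝ)|) := .of_nat_of_neg (by simpa using A) (by simpa using A)
  refine ⟨_, tsum_nonneg fun _ => (Real.exp_pos _).le, fun J j => le_trans (le_of_eq ?_)
    (B.sum_le_tsum ((range J).image fun i : ℕ => (i : ℤ) - j) fun _ _ => (Real.exp_pos _).le)⟩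
  rw [sum_image fun _ _ _ _ h => by simpa using h]
  simp

lemma Kc_le (w J : ℕ) {σ : ℂ} (h : σ.re ≠ 0) : ∃ c : ℕ → ℂ, ∀ t j, j ≤ J → ‖Kc w t j σ - c t‖ ≤
    Real.exp (-σ.re * j) * ∑ i ∈ range J, Real.exp (-|σ.re| * |(i : ℝ) - j|) * |dl w t i| := by
  have A : ∀ (t j : ℕ) (s : Finset ℕ), s ⊆ range J → (∀ i ∈ s, 0 ≤ σ.re * (i - j)) →
      ‖∑ i ∈ s, (dl w t i : ℝ) * Complex.exp (((0 : ℝ) - σ) * (i : ℝ))‖ ≤
      Real.exp (-σ.re * j) * ∑ i ∈ range J, Real.exp (-|σ.re| * |(i : ℝ) - j|) * |dl w t i| := fun t j s hs hi => by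
    rw [mul_sum]
    refine (norm_sum_le_of_le _ fun i hi' => le_of_eq ?_).trans
      (sum_le_sum_of_subset_of_nonneg hs fun _ _ _ => by positivity)
    rw [norm_mul, Complex.norm_exp, Complex.re_mul_ofReal, ← mul_assoc, ← Real.exp_add, neg_mul |_|, ← abs_mul,
      abs_of_nonneg (hi i hi'), mul_comm, Complex.norm_real, Real.norm_eq_abs]
    congr 2; simp; ring
  rcases lt_or_gt_of_ne h with h | h
  · exact ⟨0, fun t j hj => by
      simpa only [Pi.zero_apply, sub_zero, Kc] using A t j _ (range_subset_range.2 hj) fun i hi =>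
        mul_nonneg_of_nonpos_of_nonpos h.le (sub_nonpos.2 (by exact_mod_cast (mem_range.1 hi).le))⟩
  · refine ⟨fun t => Kc w t J σ, fun t j hj => ?_⟩
    rw [norm_sub_rev]
    simp only [Kc]
    rw [← sum_Ico_eq_sub _ hj]
    exact A t j _ (fun i hi => mem_range.2 (mem_Ico.1 hi).2) fun i hi =>
      mul_nonneg h.le (sub_nonneg.2 (by exact_mod_cast (mem_Ico.1 hi).1))

lemma lev_le {ρ z s p : ℝ} (h : |z| ≤ ρ) (hs : |s| ≤ p) :
    |z| * Real.exp (-s * lev ρ z) ≤ Real.exp p * ρ * (|z| / ρ) ^ (1 + s) := by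
  have ρ0 := (abs_nonneg z).trans h
  rcases (abs_nonneg z).eq_or_lt with c | c
  · rw [← c, zero_mul]; positivity
  have r0 := c.trans_le h
  have l0 := Real.log_nonneg ((one_le_div c).2 h)
  have h1 : (lev ρ z : ℝ) ≤ _ := Nat.floor_le l0
  have h2 : _ < (lev ρ z : ℝ) + 1 := Nat.lt_floor_add_one (Real.log (ρ / |z|))
  rw [Real.rpow_add (div_pos c r0), Real.rpow_one, Real.rpow_def_of_pos (div_pos c r0), ← inv_div ρ, Real.log_inv,
    inv_div, show Real.exp p * ρ * (|z| / ρ * Real.exp (-Real.log (ρ / |z|) * s)) =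
      |z| * (Real.exp p * Real.exp (-Real.log (ρ / |z|) * s)) by field_simp, ← Real.exp_add]
  gcongr
  nlinarith [abs_le.1 hs]

variable {E Λ : Type} [Fintype E] [Fintype Λ] {p : ℝ} {a : E → ℝ} {π : E → E → ℝ} {z : E → Λ → ℝ} {N : ℝ}

def Fc (p : ℝ) (z : E → Λ → ℝ) (w m : ℕ) (σ : ℂ) (e : E) (c : Fin m × Λ) : ℂ :=
  z e c.2 * Kc w c.1 (lev (np p (z e)) (z e c.2)) σ

def Fr (p : ℝ) (z : E → Λ → ℝ) (w m : ℕ) (e : E) (c : Fin m × Λ) : ℝ :=
  z e c.2 * chi w c.1 (lev (np p (z e)) (z e c.2))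

lemma Qc_const (P1 : ∀ l e, a e * (z e l - ∑ f, π e f * z f l) = 0) (k : E → ℂ) (c : ℂ) (l : Λ) (e : E) :
    a e * Qc π (fun e => z e l * k e) e = a e * Qc π (fun e => z e l * (k e - c)) e := by
  have := congrArg (fun x : ℝ => (x : ℂ) * c) (P1 l e)
  simp only [Qc, mul_sub, sum_sub_distrib, ← mul_assoc _ _ c, ← sum_mul]
  push_cast at this
  linear_combination this

lemma Gb (hp : 1 < p) (P1 : ∀ l e, a e * (z e l - ∑ f, π e f * z f l) = 0) (w m : ℕ) {σ : ℂ} (h : σ.re ≠ 0)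
    (hs : |σ.re| ≤ p) {g : ℝ} (hg : ∀ J j : ℕ, ∑ i ∈ range J, Real.exp (-|σ.re| * |(i : ℝ) - j|) ≤ g) :
    ∃ (G : E → Fin m × Λ → ℂ) (k : E → Λ → Fin m → ℝ), (∀ y, Tt p a π y (Fc p z w m σ) σ = Tt p a π y G σ) ∧
      (∀ e t l, ‖G e (t, l)‖ ≤ Real.exp p * np p (z e) * (|z e l| / np p (z e)) ^ (1 + σ.re) * k e l t) ∧
      (∀ e l t, 0 ≤ k e l t ∧ k e l t ≤ g) ∧ ∀ e l, ∑ t, k e l t ≤ g * (2 * w) := by
  classical
  let J := univ.sup fun x : E × Λ => lev (np p (z x.1)) (z x.1 x.2)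
  obtain ⟨c, hc⟩ := Kc_le w J h
  refine ⟨fun e x => z e x.2 * (Kc w x.1 (lev (np p (z e)) (z e x.2)) σ - c x.1), fun e l t =>
    ∑ i ∈ range J, Real.exp (-|σ.re| * |(i : ℝ) - lev (np p (z e)) (z e l)|) * |dl w t i|,
    fun y => sum_congr rfl fun e _ => sum_congr rfl fun x _ => by rw [← Qc_const P1]; rfl, fun e t l => ?_,
    fun e l t => ⟨by positivity, (sum_le_sum fun i _ => mul_le_of_le_one_right (Real.exp_pos _).le (dl_le _ _ _)).trans
      (hg _ _)⟩, fun e l => ?_⟩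
  · rw [norm_mul, Complex.norm_real, Real.norm_eq_abs]
    refine (mul_le_mul_of_nonneg_left (hc t _ (le_sup (f := fun x : E × Λ => lev (np p (z x.1)) (z x.1 x.2))
      (mem_univ (e, l)))) (abs_nonneg _)).trans ?_
    rw [← mul_assoc]
    exact mul_le_mul_of_nonneg_right (lev_le (le_np hp _ _) hs) (by positivity)
  · rw [sum_comm]
    refine le_trans (sum_le_sum fun i _ => ?_) ((sum_mul _ _ _).ge.trans
      (mul_le_mul_of_nonneg_right (hg J (lev (np p (z e)) (z e l))) (by positivity)))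
    rw [← mul_sum]
    exact mul_le_mul_of_nonneg_left (dl_sum _ _ _) (Real.exp_pos _).le

lemma mix {x y z t : ℝ} (x0 : 0 ≤ x) (y0 : 0 ≤ y) (z0 : 0 ≤ z) : (x * z) ^ (1 - t) * (y * z) ^ t = x ^ (1 - t) * y ^ t * z := by
  rw [Real.mul_rpow x0 z0, Real.mul_rpow y0 z0, mul_mul_mul_comm, ← Real.rpow_add' z0 (by simp)]; simp

theorem band (hp : 1 < p) (hp2 : p ≠ 2) : ∃ g, 0 ≤ g ∧ ∀ {E Λ : Type} [Fintype E] [Fintype Λ] {a : E → ℝ} {π : E → E → ℝ}
    {z : E → Λ → ℝ} {N : ℝ}, (∀ e, 0 ≤ a e) → 0 ≤ N → (∀ l e, a e * (z e l - ∑ f, π e f * z f l) = 0) →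
    (∀ F : E → ℝ, ∑ e, a e * (F e - ∑ f, π e f * F f) ^ 2 ≤ ∑ e, a e * F e ^ 2) →
    (∀ w : E → ℝ, (∀ e, 0 ≤ w e) → ∑ e, a e * (w e + ∑ f, |π e f| * w f) ^ 2 ≤ N ^ 2 * ∑ e, a e * w e ^ 2) →
    ∀ w m : ℕ, √(∑ e, a e * np p (fun c => Fr p z w m e c - ∑ f, π e f * Fr p z w m f c) ^ 2) ≤
      N ^ |1 - 2 / p| * (2 * w : ℝ) ^ (1 / p) * (g * √(∑ e, a e * np p (z e) ^ 2)) := by
  obtain ⟨g0, h0, H0⟩ := geo (abs_pos.2 (by norm_num : (-1 : ℝ) ≠ 0))
  have n1 : p - 1 ≠ 0 := by linarith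
  have n2 : p / 2 - 1 ≠ 0 := fun h => hp2 (by linarith)
  obtain ⟨g1, h1, H1⟩ := geo (abs_pos.2 n1)
  obtain ⟨g2, h2, H2⟩ := geo (abs_pos.2 n2)
  set g := g0 + g1 + g2
  have g0' : 0 ≤ g := by positivity
  refine ⟨Real.exp p * g, by positivity, fun {E Λ} _ _ a π z N a0 N0 P1 P2 P3 w m => ?_⟩
  set y : E → Fin m × Λ → ℝ := fun e c => Fr p z w m e c - ∑ f, π e f * Fr p z w m f c
  have ρ0 := fun e => np0 p (z e)
  set R := √(∑ e, a e * np p (z e) ^ 2)
  have R0 : 0 ≤ R := Real.sqrt_nonneg _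
  have hF : ∀ e c, Nice fun σ => Fc p z w m σ e c := fun e c => .mul (.const _) (.sum fun i => .mul (.const _) (.exp _ _))
  have hy : ∀ e c, a e * Qc π (Fc p z w m 0 · c) e = a e * y e c := fun e c => by
    have : ∀ t j, Kc w t j 0 = (chi w t j : ℝ) - (chi w t 0 : ℝ) := fun t j => by
      simp only [Kc, dl]; simp [sum_range_sub fun i => (chi w t i : ℂ)]
    simp only [Fc, this]
    rw [← Qc_const P1]; simp [y, Qc, Fr]
  have L0 : ∀ σ : ℂ, σ.re = -1 → ‖Tt p a π y (Fc p z w m σ) σ‖ ≤ √(∑ e, a e * np p (y e) ^ 2) *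
      (N * (Real.exp p * g * R)) := fun σ hσ => by
    obtain ⟨G, k, e1, e2, e3, -⟩ := Gb hp P1 w m (σ := σ) (g := g) (by simp [hσ]) (by simp [hσ, hp.le])
      fun J j => hσ ▸ (H0 J j).trans (by linarith)
    rw [e1, ← mul_assoc N]
    refine line0 hp a0 N0 (by positivity) ρ0 P3 hσ fun e ⟨t, l⟩ => (e2 e t l).trans ?_
    rw [hσ, add_neg_cancel, Real.rpow_zero, mul_one, mul_right_comm _ g]
    exact mul_le_mul_of_nonneg_left (e3 e l t).2 (by have := ρ0 e; positivity)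
  have L1 : ∀ σ : ℂ, σ.re = p - 1 → ‖Tt p a π y (Fc p z w m σ) σ‖ ≤ √(∑ e, a e * np p (y e) ^ 2) *
      (N * (2 * w) * (Real.exp p * g * R)) := fun σ hσ => by
    obtain ⟨G, k, e1, e2, -, e4⟩ := Gb hp P1 w m (σ := σ) (g := g) (hσ ▸ n1) (by rw [hσ, abs_le]; constructor <;> linarith)
      fun J j => hσ ▸ (H1 J j).trans (by linarith)
    rw [e1, ← mul_assoc _ _ R, mul_assoc N]
    refine line1 hp a0 N0 (by positivity) ρ0 P3 hσ fun e => ?_
    rw [Fintype.sum_prod_type_right]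
    conv_rhs => rw [← np_sum hp (z e), mul_sum, mul_sum]
    refine sum_le_sum fun l _ => (sum_le_sum fun t _ => e2 e t l).trans ?_
    rw [← mul_sum, hσ, add_sub_cancel]
    exact (mul_le_mul_of_nonneg_left (e4 e l) (by have := ρ0 e; positivity)).trans_eq (by ring)
  have L2 : ∀ σ : ℂ, σ.re = p / 2 - 1 → ‖Tt p a π y (Fc p z w m σ) σ‖ ≤ √(∑ e, a e * np p (y e) ^ 2) *
      ((2 * w : ℝ) ^ (1 / 2 : ℝ) * (Real.exp p * g * R)) := fun σ hσ => by
    obtain ⟨G, k, e1, e2, e3, e4⟩ := Gb hp P1 w m (σ := σ) (g := g) (hσ ▸ n2) (by rw [hσ, abs_le]; constructor <;> linarith)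
      fun J j => hσ ▸ (H2 J j).trans (by linarith)
    rw [e1, ← mul_assoc _ _ R]
    refine line2 hp a0 (by positivity) P2 hσ fun e => ?_
    rw [Fintype.sum_prod_type_right, sq (np _ _), ← congrArg (np p (z e) * ·) (np_sum hp (z e)), mul_pow,
      ← Real.sqrt_eq_rpow, Real.sq_sqrt (by positivity)]
    simp only [mul_sum]
    have := ρ0 e
    refine sum_le_sum fun l _ => (sum_le_sum fun t _ => (pow_le_pow_left₀ (norm_nonneg _) (e2 e t l) 2).trans
      (?_ : _ ≤ (Real.exp p * np p (z e)) ^ 2 * (|z e l| / np p (z e)) ^ p * g * k e l t)).trans ?_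
    · rw [mul_pow, mul_pow, ← Real.rpow_mul_natCast (by positivity), hσ, mul_assoc _ g, sq (k e l t),
        show (1 + (p / 2 - 1)) * (2 : ℕ) = p by push_cast; ring]
      gcongr; exacts [(e3 e l t).1, (e3 e l t).2]
    · rw [← mul_sum]
      exact (mul_le_mul_of_nonneg_left (e4 e l) (by positivity)).trans_eq (by ring)
  have W : (0 : ℝ) ≤ 2 * w := by positivity
  rcases lt_or_gt_of_ne hp2 with h | h
  · refine (interp hp a0 hF hy (by linarith) (by linarith) (by positivity) (by positivity) L2 L1).trans_eq ?_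
    rw [mix (by positivity) (by positivity) (by positivity), Real.mul_rpow N0 W, ← Real.rpow_mul W,
      mul_left_comm (_ ^ _), ← Real.rpow_add' W, abs_sub_comm, abs_of_nonneg]
    · rw [show p - 1 - (p / 2 - 1) = p / 2 by ring]; congr 3 <;> field_simp <;> ring
    · rw [sub_nonneg, le_div_iff₀ (by positivity)]; linarith
    · rw [show 1 / 2 * (1 - -(p / 2 - 1) / (p - 1 - (p / 2 - 1))) + -(p / 2 - 1) / (p - 1 - (p / 2 - 1)) = 1 / p by
        rw [show p - 1 - (p / 2 - 1) = p / 2 by ring]; field_simp; ring]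
      positivity
  · refine (interp hp a0 hF hy (by linarith) (by linarith) (by positivity) (by positivity) L0 L2).trans_eq ?_
    rw [mix (by positivity) (by positivity) (by positivity), ← Real.rpow_mul W, abs_of_nonneg]
    · rw [show p / 2 - 1 - -1 = p / 2 by ring]; congr 3 <;> field_simp <;> ring
    · rw [sub_nonneg, div_le_one (by positivity)]; linarith

end

end Crest.Agent.H0358
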