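import Crest.Agent.H0358.Loc

set_option autoImplicit false
set_option linter.unusedSectionVars false
open Finset Function

namespace Crest.Agent.H0358

noncomputable section

def Nice (f : ℂ → ℂ) : Prop := Differentiable ℂ f ∧ ∀ R : ℝ, ∃ B, ∀ z : ℂ, |z.re| ≤ R → ‖f z‖ ≤ B

lemma Nice.const (c : ℂ) : Nice fun _ => c := ⟨differentiable_const c, fun _ => ⟨_, fun _ _ => le_rfl⟩⟩

lemma Nice.mul {f g : ℂ → ℂ} (hf : Nice f) (hg : Nice g) : Nice fun z => f z * g z :=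
  ⟨hf.1.mul hg.1, fun R => by
    obtain ⟨A, hA⟩ := hf.2 R
    obtain ⟨B, hB⟩ := hg.2 R
    exact ⟨A * B, fun z hz => (norm_mul _ _).trans_le
      (mul_le_mul (hA z hz) (hB z hz) (norm_nonneg _) ((norm_nonneg _).trans (hA z hz)))⟩⟩

lemma Nice.sub {f g : ℂ → ℂ} (hf : Nice f) (hg : Nice g) : Nice fun z => f z - g z :=
  ⟨hf.1.sub hg.1, fun R => by
    obtain ⟨A, hA⟩ := hf.2 R
    obtain ⟨B, hB⟩ := hg.2 R
    exact ⟨A + B, fun z hz => (norm_sub_le _ _).trans (add_le_add (hA z hz) (hB z hz))⟩⟩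

lemma Nice.sum {ι : Type} {s : Finset ι} {f : ι → ℂ → ℂ} (hf : ∀ i, Nice (f i)) : Nice fun z => ∑ i ∈ s, f i z :=
  ⟨Differentiable.fun_sum fun i _ => (hf i).1, fun R => by
    choose A hA using fun i => (hf i).2 R
    exact ⟨∑ i ∈ s, A i, fun z hz => norm_sum_le_of_le _ fun i _ => hA i z hz⟩⟩

lemma Nice.exp (r s : ℝ) : Nice fun z => Complex.exp ((s - z) * r) :=
  ⟨by fun_prop, fun R => ⟨Real.exp ((|s| + R) * |r|), fun z hz => by
    rw [Complex.norm_exp, Complex.re_mul_ofReal, Real.exp_le_exp, Complex.sub_re, Complex.ofReal_re]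
    exact (le_abs_self _).trans ((abs_mul _ _).trans_le (mul_le_mul_of_nonneg_right
      ((abs_sub _ _).trans (by linarith)) (abs_nonneg _)))⟩⟩

lemma Nice.three {f : ℂ → ℂ} (hf : Nice f) {l u A B : ℝ} (hl : l < 0) (hu : 0 < u)
    (hA : ∀ z : ℂ, z.re = l → ‖f z‖ ≤ A) (hB : ∀ z : ℂ, z.re = u → ‖f z‖ ≤ B) :
    ‖f 0‖ ≤ A ^ (1 - -l / (u - l)) * B ^ (-l / (u - l)) := by
  obtain ⟨M, hM⟩ := hf.2 (u - l)
  simpa using Complex.HadamardThreeLines.norm_le_interp_of_mem_verticalClosedStrip' (z := 0) (hl.trans hu)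
    ⟨hl.le, hu.le⟩ hf.1.diffContOnCl ⟨M, by
      rintro _ ⟨z, hz, rfl⟩
      exact hM z (abs_le.2 ⟨by linarith [hz.1], by linarith [hz.2]⟩)⟩ hA hB

variable {E C : Type} [Fintype E] [Fintype C]

def np (p : ℝ) (y : C → ℝ) : ℝ := (∑ c, |y c| ^ p) ^ (1 / p)

lemma np0 (p : ℝ) (y : C → ℝ) : 0 ≤ np p y := by unfold np; positivity

variable {p : ℝ}

lemma np_pow (hp : 1 < p) (y : C → ℝ) : np p y ^ p = ∑ c, |y c| ^ p := by
  rw [np, one_div, Real.rpow_inv_rpow (by positivity) (by positivity)]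

lemma le_np (hp : 1 < p) (y : C → ℝ) (c : C) : |y c| ≤ np p y := by
  rw [← Real.rpow_le_rpow_iff (abs_nonneg _) (np0 _ _) (by positivity : 0 < p), np_pow hp]
  exact single_le_sum (f := fun c => |y c| ^ p) (fun _ _ => by positivity) (mem_univ c)

lemma np_sum (hp : 1 < p) (y : C → ℝ) : np p y * ∑ c, (|y c| / np p y) ^ p = np p y := by
  rcases (np0 p y).eq_or_lt with h | h
  · rw [← h, zero_mul]
  simp only [Real.div_rpow (abs_nonneg _) h.le]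
  rw [← sum_div, ← np_pow hp, div_self (by positivity), mul_one]

def Qc (π : E → E → ℝ) (F : E → ℂ) (e : E) : ℂ := F e - ∑ f, π e f * F f

def Ht (p : ℝ) (y : C → ℝ) (σ : ℂ) (c : C) : ℂ :=
  (np p y * SignType.sign (y c) : ℝ) * Complex.exp (((p - 1 : ℝ) - σ) * Real.log (|y c| / np p y))

lemma Ht_le (hp : 1 < p) (y : C → ℝ) (σ : ℂ) (c : C) :
    ‖Ht p y σ c‖ ≤ np p y * (|y c| / np p y) ^ (p - 1 - σ.re) := by
  have := np0 p y
  by_cases h : y c = 0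
  · simp only [Ht, h, sign_zero, SignType.coe_zero, mul_zero, Complex.ofReal_zero, zero_mul, norm_zero]; positivity
  have h1 := abs_pos.2 h
  have h2 := h1.trans_le (le_np hp y c)
  rw [Ht, norm_mul, Complex.norm_exp, Complex.re_mul_ofReal, Real.rpow_def_of_pos (div_pos h1 h2), mul_comm (Real.log _),
    Complex.norm_real, Real.norm_eq_abs, abs_mul, abs_of_pos h2]
  rcases lt_or_gt_of_ne h with h | h <;> simp [h]

lemma Ht_zero (hp : 1 < p) (y : C → ℝ) : ∑ c, y c * Ht p y 0 c = (np p y ^ 2 : ℝ) := by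
  rw [sq, ← congrArg (np p y * ·) (np_sum hp y), mul_sum, mul_sum, Complex.ofReal_sum]
  refine sum_congr rfl fun c _ => ?_
  by_cases h : y c = 0
  · simp [h, Real.zero_rpow (by positivity : p ≠ 0)]
  have h1 := abs_pos.2 h
  have h2 := h1.trans_le (le_np hp y c)
  rw [Ht, sub_zero, ← Complex.ofReal_mul, ← Complex.ofReal_exp, ← Complex.ofReal_mul, ← Complex.ofReal_mul,
    mul_comm (p - 1), ← Real.rpow_def_of_pos (div_pos h1 h2), Real.rpow_sub_one (div_pos h1 h2).ne',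
    ← mul_assoc, mul_left_comm (y c), self_mul_sign]
  congr 1; field_simp

def Tt (p : ℝ) (a : E → ℝ) (π : E → E → ℝ) (y : E → C → ℝ) (F : E → C → ℂ) (σ : ℂ) : ℂ :=
  ∑ e, ∑ c, a e * Qc π (F · c) e * Ht p (y e) σ c

variable {a : E → ℝ} {π : E → E → ℝ} {y : E → C → ℝ} {N b : ℝ} {ρ : E → ℝ} {G : E → C → ℂ} {σ : ℂ}

lemma cs' (a0 : ∀ e, 0 ≤ a e) (X Y : E → ℝ) {B : ℝ} (B0 : 0 ≤ B) (h : ∑ e, a e * Y e ^ 2 ≤ B ^ 2) :
    ∑ e, a e * (X e * Y e) ≤ √(∑ e, a e * X e ^ 2) * B := by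
  have s0 : 0 ≤ ∑ e, a e * X e ^ 2 := sum_nonneg fun e _ => mul_nonneg (a0 e) (sq_nonneg _)
  refine abs_le_of_sq_le_sq' ((cs a0 X Y).trans ?_) (by positivity) |>.2
  rw [mul_pow, Real.sq_sqrt s0]; gcongr

lemma Qc_le (F : E → ℂ) (e : E) : ‖Qc π F e‖ ≤ ‖F e‖ + ∑ f, |π e f| * ‖F f‖ :=
  (norm_sub_le _ _).trans (add_le_add le_rfl (norm_sum_le_of_le _ fun f _ => by simp))

lemma line_aux (a0 : ∀ e, 0 ≤ a e) (N0 : 0 ≤ N) (b0 : 0 ≤ b) (ρ0 : ∀ e, 0 ≤ ρ e)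
    (P3 : ∀ w : E → ℝ, (∀ e, 0 ≤ w e) → ∑ e, a e * (w e + ∑ f, |π e f| * w f) ^ 2 ≤ N ^ 2 * ∑ e, a e * w e ^ 2)
    (h : ∀ e, ∑ c, ‖Qc π (G · c) e‖ * ‖Ht p (y e) σ c‖ ≤ np p (y e) * (b * ρ e + ∑ f, |π e f| * (b * ρ f))) :
    ‖Tt p a π y G σ‖ ≤ √(∑ e, a e * np p (y e) ^ 2) * (N * b * √(∑ e, a e * ρ e ^ 2)) := by
  refine (norm_sum_le_of_le _ fun e _ => ?_).trans (cs' a0 _ (fun e => b * ρ e + ∑ f, |π e f| * (b * ρ f))
    (by positivity) ((P3 _ fun e => mul_nonneg b0 (ρ0 e)).trans_eq ?_))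
  · refine (norm_sum_le _ _).trans ?_
    simp only [norm_mul, Complex.norm_real, Real.norm_of_nonneg (a0 e), mul_assoc (a e), ← mul_sum]
    exact mul_le_mul_of_nonneg_left (h e) (a0 e)
  · simp only [mul_pow, mul_left_comm (a _), ← mul_sum]
    rw [Real.sq_sqrt (sum_nonneg fun e _ => mul_nonneg (a0 e) (sq_nonneg _)), mul_assoc]

lemma line0 (hp : 1 < p) (a0 : ∀ e, 0 ≤ a e) (N0 : 0 ≤ N) (b0 : 0 ≤ b) (ρ0 : ∀ e, 0 ≤ ρ e)
    (P3 : ∀ w : E → ℝ, (∀ e, 0 ≤ w e) → ∑ e, a e * (w e + ∑ f, |π e f| * w f) ^ 2 ≤ N ^ 2 * ∑ e, a e * w e ^ 2)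
    (hσ : σ.re = -1) (hG : ∀ e c, ‖G e c‖ ≤ b * ρ e) :
    ‖Tt p a π y G σ‖ ≤ √(∑ e, a e * np p (y e) ^ 2) * (N * b * √(∑ e, a e * ρ e ^ 2)) := by
  refine line_aux a0 N0 b0 ρ0 P3 fun e => ?_
  rw [← np_sum hp (y e), mul_sum, sum_mul]
  refine sum_le_sum fun c _ => (mul_comm _ _).trans_le (mul_le_mul ?_ ((Qc_le _ _).trans ?_) (norm_nonneg _) ?_)
  · simpa [hσ] using Ht_le hp (y e) σ c
  · gcongr <;> apply hG
  · have := np0 p (y e); positivity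

lemma line1 (hp : 1 < p) (a0 : ∀ e, 0 ≤ a e) (N0 : 0 ≤ N) (b0 : 0 ≤ b) (ρ0 : ∀ e, 0 ≤ ρ e)
    (P3 : ∀ w : E → ℝ, (∀ e, 0 ≤ w e) → ∑ e, a e * (w e + ∑ f, |π e f| * w f) ^ 2 ≤ N ^ 2 * ∑ e, a e * w e ^ 2)
    (hσ : σ.re = p - 1) (hG : ∀ e, ∑ c, ‖G e c‖ ≤ b * ρ e) :
    ‖Tt p a π y G σ‖ ≤ √(∑ e, a e * np p (y e) ^ 2) * (N * b * √(∑ e, a e * ρ e ^ 2)) := by
  refine line_aux a0 N0 b0 ρ0 P3 fun e => ?_
  refine (sum_le_sum fun c _ => mul_le_mul (Qc_le (G · c) e) (by simpa [hσ] using Ht_le hp (y e) σ c :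
    _ ≤ np p (y e)) (norm_nonneg _) ((norm_nonneg _).trans (Qc_le (G · c) e))).trans ?_
  rw [← sum_mul, mul_comm, sum_add_distrib, sum_comm]
  simp only [← mul_sum]
  gcongr
  exacts [np0 _ _, hG e, hG _]

lemma line2 (hp : 1 < p) (a0 : ∀ e, 0 ≤ a e) (b0 : 0 ≤ b)
    (P2 : ∀ F : E → ℝ, ∑ e, a e * (F e - ∑ f, π e f * F f) ^ 2 ≤ ∑ e, a e * F e ^ 2)
    (hσ : σ.re = p / 2 - 1) (hG : ∀ e, ∑ c, ‖G e c‖ ^ 2 ≤ b ^ 2 * ρ e ^ 2) :
    ‖Tt p a π y G σ‖ ≤ √(∑ e, a e * np p (y e) ^ 2) * (b * √(∑ e, a e * ρ e ^ 2)) := by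
  have A : ∑ x : E × C, a x.1 * ‖Qc π (G · x.2) x.1‖ ^ 2 ≤ (b * √(∑ e, a e * ρ e ^ 2)) ^ 2 := by
    rw [mul_pow, Real.sq_sqrt (sum_nonneg fun e _ => mul_nonneg (a0 e) (sq_nonneg _)), Fintype.sum_prod_type_right,
      mul_sum]
    calc _ ≤ ∑ c, ∑ e, a e * ‖G e c‖ ^ 2 := sum_le_sum fun c _ => by
          have := add_le_add (P2 fun e => (G e c).re) (P2 fun e => (G e c).im)
          simp only [Complex.sq_norm]
          simpa [Complex.normSq_apply, Qc, mul_add, sum_add_distrib, sq] using this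
      _ ≤ _ := by
          rw [sum_comm]
          exact sum_le_sum fun e _ => by
            rw [← mul_sum, mul_left_comm]; exact mul_le_mul_of_nonneg_left (hG e) (a0 e)
  refine le_trans ?_ ((cs' (fun x : E × C => a0 x.1) (fun x => ‖Ht p (y x.1) σ x.2‖) _ (by positivity) A).trans ?_)
  · rw [Fintype.sum_prod_type]
    refine norm_sum_le_of_le _ fun e _ => norm_sum_le_of_le _ fun c _ => le_of_eq ?_
    simp only [norm_mul, Complex.norm_real, Real.norm_of_nonneg (a0 e)]; ring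
  gcongr 1
  refine Real.sqrt_le_sqrt ?_
  rw [Fintype.sum_prod_type]
  refine sum_le_sum fun e _ => ?_
  dsimp only
  rw [← mul_sum, sq (np _ _), ← congrArg (np p (y e) * ·) (np_sum hp (y e))]
  refine mul_le_mul_of_nonneg_left ?_ (a0 e)
  simp only [mul_sum]
  refine sum_le_sum fun c _ => ?_
  have := np0 p (y e)
  refine (pow_le_pow_left₀ (norm_nonneg _) (Ht_le hp (y e) σ c) 2).trans_eq ?_
  rw [mul_pow, ← Real.rpow_mul_natCast (by positivity), hσ, sq, mul_assoc]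
  congr 3; push_cast; ring

lemma interp (hp : 1 < p) (a0 : ∀ e, 0 ≤ a e) {F : ℂ → E → C → ℂ} (hF : ∀ e c, Nice fun σ => F σ e c)
    (hy : ∀ e c, a e * Qc π (F 0 · c) e = a e * y e c) {l u A B : ℝ} (hl : l < 0) (hu : 0 < u) (A0 : 0 ≤ A) (B0 : 0 ≤ B)
    (hA : ∀ σ : ℂ, σ.re = l → ‖Tt p a π y (F σ) σ‖ ≤ √(∑ e, a e * np p (y e) ^ 2) * A)
    (hB : ∀ σ : ℂ, σ.re = u → ‖Tt p a π y (F σ) σ‖ ≤ √(∑ e, a e * np p (y e) ^ 2) * B) :
    √(∑ e, a e * np p (y e) ^ 2) ≤ A ^ (1 - -l / (u - l)) * B ^ (-l / (u - l)) := by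
  have s0 : 0 ≤ ∑ e, a e * np p (y e) ^ 2 := sum_nonneg fun e _ => mul_nonneg (a0 e) (sq_nonneg _)
  have := Nice.three (f := fun σ => Tt p a π y (F σ) σ) (.sum fun e => .sum fun c => .mul (.mul (.const _)
    (.sub (hF e c) (.sum fun f => .mul (.const _) (hF f c)))) (.mul (.const _) (.exp _ _))) hl hu hA hB
  simp only [Tt, hy] at this
  simp only [mul_assoc (a _ : ℂ), ← mul_sum, Ht_zero hp] at this
  simp only [← Complex.ofReal_mul, ← Complex.ofReal_sum, Complex.norm_real, Real.norm_of_nonneg s0] at this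
  rcases (Real.sqrt_nonneg (∑ e, a e * np p (y e) ^ 2)).eq_or_lt with h | h
  · rw [← h]; positivity
  rw [Real.mul_rpow h.le A0, Real.mul_rpow h.le B0, mul_mul_mul_comm, ← Real.rpow_add h, sub_add_cancel,
    Real.rpow_one] at this
  exact le_of_mul_le_mul_left ((Real.mul_self_sqrt s0).trans_le this) h

end

end Crest.Agent.H0358
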