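import Mathlib

set_option autoImplicit false
set_option linter.unusedSectionVars false
open Finset Function Filter

namespace Crest.Agent.H0358

noncomputable section

variable {V : Type} [Fintype V] [DecidableEq V]

def gr (g : V → ℝ) (e : V × V) : ℝ := g e.1 - g e.2

def ip (a F H : V × V → ℝ) : ℝ := ∑ e, a e * (F e * H e)

lemma ip_comm (a F H : V × V → ℝ) : ip a F H = ip a H F := by simp only [ip, mul_comm (F _)]

lemma exists_pot {a : V × V → ℝ} (a0 : ∀ e, 0 ≤ a e) (F : V × V → ℝ) :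
    ∃ φ : V → ℝ, ∀ g, ip a (gr φ) (gr g) = ip a F (gr g) := by
  let S : (V × V → ℝ) →ₗ[ℝ] EuclideanSpace ℝ (V × V) :=
    ⟨⟨fun F => WithLp.toLp 2 fun e => √(a e) * F e, fun _ _ => by ext; simp [mul_add]⟩,
      fun _ _ => by ext; simp [mul_left_comm]⟩
  let T : (V → ℝ) →ₗ[ℝ] (V × V → ℝ) := ⟨⟨gr, fun _ _ => by ext; simp [gr]; ring⟩,
    fun _ _ => by ext; simp [gr]; ring⟩
  have hS : ∀ F H, inner ℝ (S F) (S H) = ip a F H := fun F H => by
    simp only [PiLp.inner_apply, S, ip, LinearMap.coe_mk, AddHom.coe_mk, RCLike.inner_apply, conj_trivial]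
    refine sum_congr rfl fun e _ => ?_
    rw [mul_mul_mul_comm, Real.mul_self_sqrt (a0 e), mul_comm (F e)]
  obtain ⟨φ, h⟩ := (LinearMap.range (S ∘ₗ T)).starProjection_apply_mem (S F)
  refine ⟨φ, fun g => ?_⟩
  have := (LinearMap.range (S ∘ₗ T)).starProjection_inner_eq_zero (S F) _ ⟨g, rfl⟩
  rw [← h, inner_sub_left, sub_eq_zero] at this
  rw [← hS, ← hS]
  exact this.symm

lemma cs {E : Type} [Fintype E] {a : E → ℝ} (a0 : ∀ e, 0 ≤ a e) (X Y : E → ℝ) :
    (∑ e, a e * (X e * Y e)) ^ 2 ≤ (∑ e, a e * X e ^ 2) * ∑ e, a e * Y e ^ 2 := by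
  have := sum_mul_sq_le_sq_mul_sq univ (fun e => √(a e) * X e) fun e => √(a e) * Y e
  simpa only [mul_mul_mul_comm _ (X _), Real.mul_self_sqrt (a0 _), mul_pow, Real.sq_sqrt (a0 _)] using this

section chain
variable (a : V × V → ℝ) (μ : V → ℝ) (h : ℝ)

def kk (x y : V) : ℝ := h / μ x * (a (x, y) + a (y, x))

def Pm (g : V → ℝ) (x : V) : ℝ := (1 - ∑ y, kk a μ h x y) * g x + ∑ y, kk a μ h x y * g y

def im (f g : V → ℝ) : ℝ := ∑ x, μ x * (f x * g x)

lemma im_comm (f g : V → ℝ) : im μ f g = im μ g f := by simp only [im, mul_comm (f _)]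

variable {a μ h} (μ0 : ∀ x, 0 < μ x)
include μ0

lemma dir (f g : V → ℝ) : im μ f g - im μ (Pm a μ h f) g = h * ip a (gr f) (gr g) := by
  have : ∀ x, μ x * (f x * g x) - μ x * (Pm a μ h f x * g x) =
      h * ∑ y, a (x, y) * ((f x - f y) * g x) + h * ∑ y, a (y, x) * ((f x - f y) * g x) := fun x => by
    have := (μ0 x).ne'
    have e : f x - Pm a μ h f x = ∑ y, kk a μ h x y * (f x - f y) := by
      simp only [Pm, mul_sub, sum_sub_distrib, ← sum_mul]; ring
    rw [← mul_sub, ← sub_mul, e]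
    simp only [sum_mul, mul_sum, ← sum_add_distrib, kk]
    exact sum_congr rfl fun y _ => by field_simp
  rw [im, im, ← sum_sub_distrib, sum_congr rfl fun x _ => this x, sum_add_distrib, ← mul_sum, ← mul_sum,
    sum_comm (f := fun x y => a (y, x) * _), ← mul_add, ip, Fintype.sum_prod_type, ← sum_add_distrib]
  simp only [← sum_add_distrib, gr]
  congr 1
  exact sum_congr rfl fun x _ => sum_congr rfl fun y _ => by ring

lemma sa (f g : V → ℝ) : im μ (Pm a μ h f) g = im μ f (Pm a μ h g) := by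
  have := dir (a := a) (h := h) μ0 f g
  have := dir (a := a) (h := h) μ0 g f
  rw [ip_comm, im_comm μ g, im_comm μ _ f] at this
  linarith

lemma sa_it (k : ℕ) (f g : V → ℝ) : im μ ((Pm a μ h)^[k] f) g = im μ f ((Pm a μ h)^[k] g) := by
  induction k generalizing f with
  | zero => rfl
  | succ k ih => rw [iterate_succ_apply, ih, sa μ0, iterate_succ_apply']

lemma mass (g : V → ℝ) : ∑ x, μ x * Pm a μ h g x = ∑ x, μ x * g x := by
  have := dir (a := a) (h := h) μ0 g fun _ => 1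
  simp only [im, ip, gr, sub_self, mul_zero, sum_const_zero, mul_one] at this
  linarith

variable (a0 : ∀ e, 0 ≤ a e) (h0 : 0 < h) (hs : ∀ x, ∑ y, kk a μ h x y ≤ 1 / 2)
include a0 h0 hs

lemma kk0 (x y : V) : 0 ≤ kk a μ h x y := by
  have := μ0 x; have := a0 (x, y); have := a0 (y, x); unfold kk; positivity

lemma Pm_mono {f g : V → ℝ} (H : ∀ x, f x ≤ g x) (x : V) : Pm a μ h f x ≤ Pm a μ h g x :=
  add_le_add (mul_le_mul_of_nonneg_left (H x) (by linarith [hs x]))
    (sum_le_sum fun y _ => mul_le_mul_of_nonneg_left (H y) (kk0 μ0 a0 h0 hs x y))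

omit μ0 a0 h0 hs in
lemma Pm_lin (b c d : ℝ) (f g : V → ℝ) (x : V) :
    Pm a μ h (fun x => b * f x + c * g x + d) x = b * Pm a μ h f x + c * Pm a μ h g x + d := by
  simp only [Pm, mul_add, sum_add_distrib, mul_left_comm _ b, mul_left_comm _ c, ← mul_sum, ← sum_mul]
  ring

lemma Pm_abs {f g : V → ℝ} (H : ∀ x, |f x| ≤ g x) (x : V) : |Pm a μ h f x| ≤ Pm a μ h g x := by
  have := Pm_mono μ0 a0 h0 hs (f := fun x => -1 * f x + 0 * f x + 0) (g := g)
    (fun x => by linarith [neg_abs_le (f x), H x]) x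
  rw [Pm_lin] at this
  exact abs_le.2 ⟨by linarith, Pm_mono μ0 a0 h0 hs (fun x => (le_abs_self _).trans (H x)) x⟩

lemma drop {g : V → ℝ} (g0 : ∀ x, 0 ≤ g x) : h * ip a (gr fun x => √(g x)) (gr fun x => √(g x)) ≤
    ∑ x, μ x * (g x * Real.log (g x)) - ∑ x, μ x * (Pm a μ h g x * Real.log (Pm a μ h g x)) := by
  have k0 := kk0 μ0 a0 h0 hs
  have A : ∀ x, Pm a μ h g x - Pm a μ h (fun x => √(g x)) x ^ 2 ≤
      Pm a μ h (fun x => g x * Real.log (g x)) x - Pm a μ h g x * Real.log (Pm a μ h g x) := fun x => by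
    have m0 : 0 ≤ Pm a μ h g x := (abs_nonneg _).trans (Pm_abs μ0 a0 h0 hs (f := 0) (by simpa) x)
    rcases m0.eq_or_lt with c | c
    · have c1 := mul_nonneg (by linarith [hs x] : 0 ≤ 1 - ∑ y, kk a μ h x y) (g0 x)
      have c2 := fun y (_ : y ∈ univ) => mul_nonneg (k0 x y) (g0 y)
      have c3 := (add_eq_zero_iff_of_nonneg c1 (sum_nonneg c2)).1 c.symm
      rw [← c, Pm, Pm, ← mul_assoc, c3.1, sum_eq_zero (f := fun y => _ * (g y * _)) fun y hy => by
        rw [← mul_assoc, (sum_eq_zero_iff_of_nonneg c2).1 c3.2 y hy, zero_mul]]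
      simp [sq_nonneg]
    set m := Pm a μ h g x
    have := Pm_mono μ0 a0 h0 hs (f := fun y => (Real.log m + 2) * g y + -(2 * √m) * √(g y) + 0)
      (g := fun x => g x * Real.log (g x)) (fun y => by
        rcases (g0 y).eq_or_lt with d | d
        · simp [← d]
        have s1 := Real.sqrt_pos.2 c
        have s2 := Real.sqrt_pos.2 d
        have := mul_le_mul_of_nonneg_left (Real.one_sub_inv_le_log_of_pos (div_pos s2 s1)) d.le
        rw [Real.log_div s2.ne' s1.ne', Real.log_sqrt d.le, Real.log_sqrt c.le, inv_div, mul_sub (g y) 1,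
          show g y * (√m / √(g y)) = √m * √(g y) by
            rw [mul_div_left_comm, Real.div_sqrt]] at this
        linarith) x
    rw [Pm_lin] at this
    nlinarith [sq_nonneg (√m - Pm a μ h (fun x => √(g x)) x), Real.sq_sqrt c.le]
  have B : ∀ (r : V → ℝ) x, r x * r x - r x * Pm a μ h r x + (Pm a μ h (fun x => r x * r x) x - r x * r x) / 2 ≤
      Pm a μ h (fun x => r x * r x) x - Pm a μ h r x ^ 2 := fun r x => by
    have := sum_mul_sq_le_sq_mul_sq univ (fun y => √(kk a μ h x y)) fun y => √(kk a μ h x y) * (r y - r x)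
    simp only [← mul_assoc, Real.mul_self_sqrt (k0 _ _), mul_pow, Real.sq_sqrt (k0 _ _)] at this
    have s0 : 0 ≤ ∑ y, kk a μ h x y * (r y - r x) ^ 2 := sum_nonneg fun y _ => mul_nonneg (k0 _ _) (sq_nonneg _)
    have := this.trans (mul_le_mul_of_nonneg_right (hs x) s0)
    simp only [sub_sq, mul_sub, mul_add, sum_add_distrib, sum_sub_distrib, ← sum_mul, mul_left_comm _ (2 : ℝ),
      mul_assoc (2 : ℝ), ← mul_sum, ← mul_assoc (kk _ _ _ _ _) _ (r x), sq (r _)] at this
    simp only [Pm]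
    nlinarith
  rw [← dir μ0, ← mass (a := a) (h := h) μ0 fun x => g x * Real.log (g x), ← sum_sub_distrib]
  have := mass (a := a) (h := h) μ0 g
  refine le_trans (le_of_eq ?_) (sum_le_sum fun x _ => (mul_le_mul_of_nonneg_left
    ((B (fun x => √(g x)) x).trans (by simpa only [Real.mul_self_sqrt (g0 _)] using A x)) (μ0 x).le).trans_eq
    (mul_sub _ _ _))
  simp only [mul_add, mul_sub, sum_add_distrib, sum_sub_distrib, ← mul_div_assoc, ← sum_div, im,
    Real.mul_self_sqrt (g0 _), this, mul_comm (Pm _ _ _ _ _)]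
  ring

/-- heat kernel started at `v` -/
def hk (a : V × V → ℝ) (μ : V → ℝ) (h : ℝ) (v : V) (k : ℕ) : V → ℝ :=
  (Pm a μ h)^[k] fun x => if x = v then 1 / μ v else 0

lemma hk0 (v : V) (k : ℕ) (x : V) : 0 ≤ hk a μ h v k x := by
  induction k generalizing x with
  | zero => have := μ0 v; simp only [hk, iterate_zero, id]; split_ifs <;> positivity
  | succ k ih =>
    rw [hk, iterate_succ_apply']
    exact (abs_nonneg _).trans (Pm_abs μ0 a0 h0 hs (f := 0) (fun x => abs_zero.trans_le (ih x)) x)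

omit a0 h0 hs in
lemma hk1 (v : V) (k : ℕ) : ∑ x, μ x * hk a μ h v k x = 1 := by
  induction k with
  | zero => simp [hk, (μ0 v).ne']
  | succ k ih => rw [hk, iterate_succ_apply', mass μ0]; exact ih

lemma ent (v : V) (K : ℕ) : ∑ k ∈ range K, h * ip a (gr fun x => √(hk a μ h v k x)) (gr fun x => √(hk a μ h v k x)) ≤
    Real.log ((∑ x, μ x) / μ v) := by
  have M0 : 0 < ∑ x, μ x := sum_pos (fun x _ => μ0 x) ⟨v, mem_univ _⟩
  have A := sum_le_sum fun k (_ : k ∈ range K) => drop μ0 a0 h0 hs (hk0 μ0 a0 h0 hs v k)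
  have B := sum_range_sub' (fun k => ∑ x, μ x * (hk a μ h v k x * Real.log (hk a μ h v k x))) K
  simp only [hk, iterate_succ_apply'] at A B ⊢
  refine A.trans (B.le.trans ?_)
  have C : ∑ x, (μ x * hk a μ h v K x * (1 - Real.log (∑ x, μ x)) - μ x / ∑ x, μ x) ≤
      ∑ x, μ x * (hk a μ h v K x * Real.log (hk a μ h v K x)) := sum_le_sum fun x _ => by
    have := μ0 x
    rcases (hk0 μ0 a0 h0 hs v K x).eq_or_lt with d | d
    · rw [← d]; simp only [mul_zero, zero_mul, zero_sub, neg_nonpos]; positivity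
    have := mul_le_mul_of_nonneg_left (Real.one_sub_inv_le_log_of_pos (mul_pos d M0)) (mul_pos this d).le
    rw [Real.log_mul d.ne' M0.ne', mul_sub _ 1, show μ x * hk a μ h v K x * (hk a μ h v K x * ∑ x, μ x)⁻¹ =
      μ x / ∑ x, μ x by field_simp] at this
    linarith
  rw [sum_sub_distrib, ← sum_mul, ← sum_div, hk1 μ0, div_self M0.ne'] at C
  rw [Real.log_div M0.ne' (μ0 v).ne', iterate_zero, sum_eq_single v (by intro x _ hx; simp [hx]) (by simp)]
  simp only [hk, id, if_true, one_div, Real.log_inv, ← mul_assoc, mul_inv_cancel₀ (μ0 v).ne'] at C ⊢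
  linarith

omit a0 h0 hs in
lemma rep {φ : V → ℝ} {F : V × V → ℝ} (hφ : ∀ g, ip a (gr φ) (gr g) = ip a F (gr g)) (k : ℕ) (v : V) :
    (Pm a μ h)^[k] φ v - (Pm a μ h)^[k + 1] φ v = ∑ e, h * a e * (F e * gr (hk a μ h v k) e) := by
  have A : ∀ f : V → ℝ, f v = im μ f fun x => if x = v then 1 / μ v else 0 := fun f => by
    have := (μ0 v).ne'
    simp only [im, mul_ite, mul_zero, sum_ite_eq', mem_univ, if_true]; field_simp
  rw [A ((Pm a μ h)^[k] φ), A ((Pm a μ h)^[k + 1] φ), iterate_succ_apply, sa_it μ0, sa_it μ0, dir μ0, hφ, ip, mul_sum]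
  simp only [mul_assoc, hk]

lemma loc0 {L : Type} [Fintype L] [Nonempty V] {w : V × V → ℝ}
    (hw : ∀ x, ∑ y, (a (x, y) * w (x, y) ^ 2 + a (y, x) * w (y, x) ^ 2) ≤ μ x)
    {φ ψ : L → V → ℝ} {F H : L → V × V → ℝ} (hφ : ∀ l g, ip a (gr (φ l)) (gr g) = ip a (F l) (gr g))
    (hψ : ∀ l g, ip a (gr (ψ l)) (gr g) = ip a (H l) (gr g)) (w0 : ∀ e, 0 ≤ w e)
    (hF : ∀ l e, |F l e| ≤ w e) (hH : ∀ e, ∑ l, |H l e| ≤ w e) :
    ∑ l, ip a (gr (φ l)) (gr (ψ l)) ≤ 4 * (∑ x, μ x) * Real.log (Fintype.card V) := by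
  set P := Pm a μ h
  set M := ∑ x, μ x
  have M0 : 0 < M := sum_pos (fun x _ => μ0 x) univ_nonempty
  let α : ℕ → V → ℝ := fun k v => ∑ e, h * a e * (w e * |gr (hk a μ h v k) e|)
  have ha : ∀ e, 0 ≤ h * a e := fun e => mul_nonneg h0.le (a0 e)
  have α0 : ∀ k v, 0 ≤ α k v := fun k v => sum_nonneg fun e _ => by have := ha e; have := w0 e; positivity
  have A1 : ∀ l k v, |P^[k] (φ l) v - P^[k + 1] (φ l) v| ≤ α k v := fun l k v => by
    rw [rep μ0 (hφ l)]
    refine (abs_sum_le_sum_abs _ _).trans (sum_le_sum fun e _ => ?_)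
    rw [abs_mul, abs_mul (F l e), abs_of_nonneg (ha e)]
    gcongr; exacts [ha e, hF l e]
  have A2 : ∀ k v, ∑ l, |P^[k] (ψ l) v - P^[k + 1] (ψ l) v| ≤ α k v := fun k v => by
    refine (sum_le_sum fun l _ => (rep μ0 (hψ l) k v) ▸ abs_sum_le_sum_abs _ _).trans ?_
    rw [sum_comm]
    refine sum_le_sum fun e _ => ?_
    simp only [abs_mul (h * a e), abs_mul (H _ e), abs_of_nonneg (ha e), ← mul_sum, ← sum_mul]
    gcongr; exacts [ha e, hH e]
  have A3 : ∀ k v, α k v ^ 2 ≤ 2 * h * (h * ip a (gr fun x => √(hk a μ h v k x)) (gr fun x => √(hk a μ h v k x))) :=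
    fun k v => by
    have g0 := hk0 μ0 a0 h0 hs v k
    have g1 := hk1 (a := a) (h := h) μ0 v k
    simp only [α]
    generalize hk a μ h v k = g at *
    have B := cs a0 (fun e => w e * (√(g e.1) + √(g e.2))) fun e => |gr (fun x => √(g x)) e|
    have C : ∑ e, a e * (w e * (√(g e.1) + √(g e.2))) ^ 2 ≤ 2 := by
      calc _ ≤ ∑ e, 2 * (a e * w e ^ 2 * g e.1 + a e * w e ^ 2 * g e.2) := sum_le_sum fun e _ => by
            have := mul_le_mul_of_nonneg_left (add_sq_le (a := √(g e.1)) (b := √(g e.2)))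
              (mul_nonneg (a0 e) (sq_nonneg (w e)))
            rw [Real.sq_sqrt (g0 _), Real.sq_sqrt (g0 _)] at this
            rw [mul_pow]; linarith
        _ = 2 * ∑ x, (∑ y, (a (x, y) * w (x, y) ^ 2 + a (y, x) * w (y, x) ^ 2)) * g x := by
            rw [← mul_sum, sum_add_distrib, Fintype.sum_prod_type, Fintype.sum_prod_type_right]
            simp only [sum_mul, add_mul, sum_add_distrib]
        _ ≤ 2 * ∑ x, μ x * g x := by gcongr; exacts [g0 _, hw _]
        _ = 2 := by rw [g1, mul_one]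
    have D : ∀ e, h * a e * (w e * |gr g e|) = h * (a e * (w e * (√(g e.1) + √(g e.2)) * |gr (fun x => √(g x)) e|)) :=
      fun e => by
      rw [mul_assoc (w e), ← abs_of_nonneg (by positivity : 0 ≤ √(g e.1) + √(g e.2)), ← abs_mul, gr, gr,
        ← sq_sub_sq, Real.sq_sqrt (g0 _), Real.sq_sqrt (g0 _), mul_assoc]
    simp only [D, ← mul_sum, mul_pow, sq_abs, ip, ← sq] at B ⊢
    have := B.trans (mul_le_mul_of_nonneg_right (by simpa only [mul_pow] using C)
      (sum_nonneg fun e _ => mul_nonneg (a0 e) (sq_nonneg _)))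
    nlinarith [sq_nonneg h]
  let β : ℕ → ℝ := fun k => ∑ v, μ v * α k v ^ 2
  have β0 : ∀ k, 0 ≤ β k := fun k => sum_nonneg fun v _ => mul_nonneg (μ0 v).le (sq_nonneg _)
  have n0 : (0 : ℝ) < Fintype.card V := by exact_mod_cast Fintype.card_pos
  have A4 : ∀ K, ∑ k ∈ range K, β k ≤ 2 * h * (M * Real.log (Fintype.card V)) := fun K => by
    rw [sum_comm]
    calc _ ≤ ∑ v, 2 * h * (μ v * (Real.log (Fintype.card V) - 1) + M / Fintype.card V) := sum_le_sum fun v _ => by
          have m := μ0 v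
          have B := mul_le_mul_of_nonneg_left (sum_le_sum fun k (_ : k ∈ range K) => A3 k v) m.le
          have C := mul_le_mul_of_nonneg_left (ent μ0 a0 h0 hs v K) (mul_pos h0 m).le
          have D := mul_le_mul_of_nonneg_left (Real.log_le_sub_one_of_pos (div_pos (div_pos M0 m) n0)) (mul_pos h0 m).le
          rw [Real.log_div (div_pos M0 m).ne' n0.ne', mul_sub _ _ 1, show h * μ v * (M / μ v / Fintype.card V) =
            h * (M / Fintype.card V) by field_simp] at D
          rw [← mul_sum] at B ⊢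
          linarith
      _ = _ := by
          rw [← mul_sum, sum_add_distrib, ← sum_mul, sum_const, card_univ, nsmul_eq_mul]; field_simp; ring
  let E : ℕ → ℝ := fun k => ∑ l, h * ip a (gr (P^[k] (φ l))) (gr (P^[k] (ψ l)))
  have A5 : ∀ k, E k - E (k + 1) ≤ 3 / 2 * β k + 1 / 2 * β (k + 1) := fun k => by
    have B : ∀ l, h * ip a (gr (P^[k] (φ l))) (gr (P^[k] (ψ l))) - h * ip a (gr (P^[k + 1] (φ l))) (gr (P^[k + 1] (ψ l))) =
        ∑ v, μ v * ((P^[k] (φ l) v - P^[k + 1] (φ l) v) * ((P^[k] (ψ l) v - P^[k + 1] (ψ l) v) +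
          (P^[k + 1] (ψ l) v - P^[k + 1 + 1] (ψ l) v))) := fun l => by
      have b1 := sa (a := a) (h := h) μ0 (P^[k] (φ l)) (P^[k + 1] (ψ l))
      have b2 := sa (a := a) (h := h) μ0 (P^[k + 1] (φ l)) (P^[k + 1] (ψ l))
      rw [← dir μ0, ← dir μ0]
      simp only [iterate_succ_apply', im, sub_add_sub_cancel, mul_sub, sub_mul, sum_sub_distrib] at b1 b2 ⊢
      linarith
    simp only [E, β, ← sum_sub_distrib, B]
    rw [sum_comm, mul_sum, mul_sum, ← sum_add_distrib]
    refine sum_le_sum fun v _ => ?_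
    have C : ∑ l, (P^[k] (φ l) v - P^[k + 1] (φ l) v) * ((P^[k] (ψ l) v - P^[k + 1] (ψ l) v) +
          (P^[k + 1] (ψ l) v - P^[k + 1 + 1] (ψ l) v)) ≤ α k v * (α k v + α (k + 1) v) := by
      refine le_trans ?_ (mul_le_mul_of_nonneg_left (add_le_add (A2 k v) (A2 (k + 1) v)) (α0 k v))
      rw [← sum_add_distrib, mul_sum]
      exact sum_le_sum fun l _ => (le_abs_self _).trans ((abs_mul _ _).trans_le
        (mul_le_mul (A1 l k v) (abs_add_le _ _) (abs_nonneg _) (α0 k v)))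
    rw [← mul_sum]
    nlinarith [mul_le_mul_of_nonneg_left C (μ0 v).le, mul_nonneg (μ0 v).le (sq_nonneg (α k v - α (k + 1) v))]
  let B := ∑ l, ∑ x, |ψ l x|
  have A6 : ∀ k, E k ≤ √(β k * M) * B := fun k => by
    have C : ∀ l k v, |P^[k] (ψ l) v| ≤ ∑ x, |ψ l x| := fun l k => by
      induction k with
      | zero => exact fun v => single_le_sum (f := fun x => |ψ l x|) (fun _ _ => abs_nonneg _) (mem_univ v)
      | succ k ih =>
        intro v
        rw [iterate_succ_apply']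
        refine (Pm_abs μ0 a0 h0 hs ih v).trans_eq ?_
        simp only [Pm, ← sum_mul]; ring
    have D : ∑ v, μ v * (α k v * 1) ≤ √(β k * M) :=
      Real.le_sqrt_of_sq_le (by simpa only [one_pow, mul_one] using cs (fun x => (μ0 x).le) (α k) fun _ => 1)
    refine le_trans ?_ (mul_le_mul_of_nonneg_right D (sum_nonneg fun _ _ => sum_nonneg fun _ _ => abs_nonneg _))
    rw [mul_sum]
    refine sum_le_sum fun l _ => ?_
    rw [← dir μ0, im, im, ← sum_sub_distrib, sum_mul]
    refine sum_le_sum fun v _ => ?_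
    rw [← mul_sub, ← sub_mul, mul_one, mul_assoc, ← iterate_succ_apply' (Pm a μ h)]
    exact mul_le_mul_of_nonneg_left ((le_abs_self _).trans ((abs_mul _ _).trans_le
      (mul_le_mul (A1 l k v) (C l k v) (abs_nonneg _) (α0 k v)))) (μ0 v).le
  have A7 : Tendsto (fun k => √(β k * M) * B + 4 * h * (M * Real.log (Fintype.card V))) atTop
      (nhds (√(0 * M) * B + 4 * h * (M * Real.log (Fintype.card V)))) :=
    ((((summable_of_sum_range_le β0 A4).tendsto_atTop_zero.mul_const M).sqrt).mul_const B).add_const _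
  have A8 : E 0 ≤ _ := ge_of_tendsto' A7 fun K => by
    have := sum_le_sum fun k (_ : k ∈ range K) => A5 k
    have b := A4 (K + 1)
    rw [sum_range_sub', sum_add_distrib, ← mul_sum, ← mul_sum] at this
    rw [sum_range_succ'] at b
    linarith [A4 K, A6 K, β0 0]
  simp only [E, ← mul_sum, iterate_zero, id, zero_mul, Real.sqrt_zero] at A8
  exact le_of_mul_le_mul_left (by linarith) h0

end chain

lemma loc {a : V × V → ℝ} (a0 : ∀ e, 0 ≤ a e) {L : Type} [Fintype L] [Nonempty V] {w : V × V → ℝ}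
    {φ ψ : L → V → ℝ} {F H : L → V × V → ℝ} (hφ : ∀ l g, ip a (gr (φ l)) (gr g) = ip a (F l) (gr g))
    (hψ : ∀ l g, ip a (gr (ψ l)) (gr g) = ip a (H l) (gr g)) (w0 : ∀ e, 0 ≤ w e)
    (hF : ∀ l e, |F l e| ≤ w e) (hH : ∀ e, ∑ l, |H l e| ≤ w e) :
    ∑ l, ip a (gr (φ l)) (gr (ψ l)) ≤ 8 * Real.log (Fintype.card V) * ∑ e, a e * w e ^ 2 := by
  refine le_of_forall_pos_le_add fun ε ε0 => ?_
  have n0 : (0 : ℝ) < Fintype.card V := by exact_mod_cast Fintype.card_pos
  have l0 := Real.log_natCast_nonneg (Fintype.card V)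
  set η := ε / (4 * Fintype.card V * (Real.log (Fintype.card V) + 1))
  have η0 : 0 < η := by positivity
  let μ : V → ℝ := fun x => ∑ y, (a (x, y) * w (x, y) ^ 2 + a (y, x) * w (y, x) ^ 2) + η
  have μ0 : ∀ x, 0 < μ x := fun x => add_pos_of_nonneg_of_pos
    (sum_nonneg fun y _ => by have := a0 (x, y); have := a0 (y, x); positivity) η0
  have s0 : ∀ x, 0 ≤ ∑ y, kk a μ 1 x y := fun x => sum_nonneg fun y _ => by
    have := μ0 x; have := a0 (x, y); have := a0 (y, x); unfold kk; positivity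
  have s1 := sum_nonneg fun x (_ : x ∈ univ) => s0 x
  have := loc0 (h := 1 / (2 * (∑ x, ∑ y, kk a μ 1 x y + 1))) μ0 a0 (by positivity) (fun x => by
    have := single_le_sum (fun x _ => s0 x) (mem_univ x)
    have e : ∀ h, ∑ y, kk a μ h x y = h * ∑ y, kk a μ 1 x y := fun h => by
      rw [mul_sum]; exact sum_congr rfl fun y _ => by unfold kk; ring
    rw [e, div_mul_eq_mul_div, div_le_iff₀ (by positivity)]
    linarith) (fun x => by simp [μ, η0.le]) hφ hψ w0 hF hH
  refine this.trans ?_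
  have e : ε = 4 * Fintype.card V * (Real.log (Fintype.card V) + 1) * η := by simp only [η]; field_simp
  simp only [μ, sum_add_distrib, sum_const, card_univ, nsmul_eq_mul]
  rw [← Fintype.sum_prod_type', ← Fintype.sum_prod_type_right' (f := fun x y => a (x, y) * w (x, y) ^ 2), e]
  nlinarith [mul_pos n0 η0]

theorem exists_proj {a : V × V → ℝ} (a0 : ∀ e, 0 ≤ a e) [Nonempty V] (l0 : 0 < Real.log (Fintype.card V)) :
    ∃ φ : V × V → V → ℝ, (∀ u e, a e * (gr u e - ∑ f, gr (φ f) e * gr u f) = 0) ∧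
      (∀ F : V × V → ℝ, ∑ e, a e * (F e - ∑ f, gr (φ f) e * F f) ^ 2 ≤ ∑ e, a e * F e ^ 2) ∧
      ∀ w : V × V → ℝ, (∀ e, 0 ≤ w e) → ∑ e, a e * (∑ f, |gr (φ f) e| * w f) ^ 2 ≤
        (32 * Real.log (Fintype.card V)) ^ 2 * ∑ e, a e * w e ^ 2 := by
  choose φ hφ using fun f : V × V => exists_pot a0 fun e => if e = f then 1 else 0
  let Φ : (V × V → ℝ) → V → ℝ := fun F x => ∑ f, φ f x * F f
  have e1 : ∀ F e, gr (Φ F) e = ∑ f, gr (φ f) e * F f := fun F e => by simp only [gr, Φ, sub_mul, sum_sub_distrib]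
  have e2 : ∀ F g, ip a (gr (Φ F)) (gr g) = ip a F (gr g) := fun F g => by
    have : ∀ f, ∑ e, a e * (gr (φ f) e * F f * gr g e) = a f * (F f * gr g f) := fun f => by
      have := congrArg (· * F f) (hφ f g)
      simp only [ip, ite_mul, one_mul, zero_mul, mul_ite, mul_zero, sum_ite_eq', mem_univ, if_true, sum_mul] at this
      linear_combination (exp := 1) this - sum_congr rfl fun e (_ : e ∈ univ) =>
        (by ring : a e * (gr (φ f) e * gr g e) * F f = a e * (gr (φ f) e * F f * gr g e))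
    simp only [ip, e1, sum_mul, mul_sum]
    rw [sum_comm]; simp only [this]
  have e3 : ∀ F, ∑ e, a e * (F e - gr (Φ F) e) ^ 2 = ip a F F - ip a F (gr (Φ F)) := fun F => by
    have := e2 F (Φ F)
    simp only [ip, sq, sub_mul, mul_sub, sum_sub_distrib, mul_comm (gr (Φ F) _) (F _)] at this ⊢
    linarith
  refine ⟨φ, fun u e => ?_, fun F => ?_, fun w w0 => ?_⟩
  · have := e3 (gr u)
    rw [ip_comm a _ (gr (Φ _)), e2, sub_self, sum_eq_zero_iff_of_nonneg fun e _ => mul_nonneg (a0 e) (sq_nonneg _)] at this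
    have := this e (mem_univ e)
    rw [← e1]
    simpa using this
  · simp only [← e1]
    rw [e3, ← e2]
    have : 0 ≤ ip a (gr (Φ F)) (gr (Φ F)) := sum_nonneg fun e _ => mul_nonneg (a0 e) (mul_self_nonneg _)
    simp only [sq]; exact sub_le_self _ this
  set N := Real.log (Fintype.card V)
  set u : V × V → ℝ := fun e => (∑ f, |gr (φ f) e| * w f) / (32 * N)
  have u0 : ∀ e, 0 ≤ u e := fun e => div_nonneg (sum_nonneg fun f _ => mul_nonneg (abs_nonneg _) (w0 f)) (by positivity)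
  have A := loc a0 (φ := fun _ => Φ _) (ψ := fun _ => Φ _) (w := fun e => w e + u e) (F := fun l f => SignType.sign (gr (φ f) l) * w f)
    (H := fun l e => if e = l then u e else 0) (fun l => e2 _) (fun l => e2 _) (fun e => add_nonneg (w0 e) (u0 e))
    (fun l e => by
      rw [abs_mul, abs_of_nonneg (w0 e)]
      have : |(SignType.sign (gr (φ e) l) : ℝ)| ≤ 1 := by rcases SignType.sign (gr (φ e) l) with _ | _ | _ <;> simp
      nlinarith [w0 e, u0 e])
    (fun e => by simp [apply_ite abs, abs_of_nonneg (u0 e), w0 e])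
  have B : ∀ e, ∑ f, |gr (φ f) e| * w f = 32 * N * u e := fun e => by simp only [u]; field_simp
  simp only [fun l => ip_comm a (gr (Φ fun f => SignType.sign (gr (φ f) l) * w f)), e2] at A
  simp only [ip, ite_mul, zero_mul, mul_ite, mul_zero, sum_ite_eq', mem_univ, if_true, e1, ← mul_assoc (gr _ _),
    self_mul_sign, B] at A
  simp only [B, mul_pow, mul_left_comm (a _), ← mul_sum]
  have C : ∑ e, a e * (w e + u e) ^ 2 ≤ 2 * (∑ e, a e * w e ^ 2 + ∑ e, a e * u e ^ 2) := by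
    rw [← sum_add_distrib, mul_sum]
    exact sum_le_sum fun e _ => by nlinarith [mul_le_mul_of_nonneg_left (add_sq_le (a := w e) (b := u e)) (a0 e)]
  have D : ∑ e, a e * (u e * (32 * N * u e)) = 32 * N * ∑ e, a e * u e ^ 2 := by
    rw [mul_sum]; exact sum_congr rfl fun e _ => by ring
  rw [D] at A
  have : ∑ e, a e * u e ^ 2 ≤ ∑ e, a e * w e ^ 2 := le_of_mul_le_mul_left (a := 16 * N)
    (by nlinarith [mul_le_mul_of_nonneg_left C l0.le]) (by positivity)
  gcongr

end

end Crest.Agent.H0358
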