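import Crest.Agent.H0358.Band

set_option autoImplicit false
set_option linter.unusedSectionVars false
open Finset Function

namespace Crest.Agent.H0358

noncomputable section

theorem minimax {ι X : Type} [Fintype ι] [AddCommGroup X] [Module ℝ X] {K : Set X} (hK : Convex ℝ K) {x₀ : X} (h₀ : x₀ ∈ K)
    {g : ι → X → ℝ} (hg : ∀ i, ConvexOn ℝ K (g i)) {B : ℝ}
    (h : ∀ μ : ι → ℝ, (∀ i, 0 ≤ μ i) → ∑ i, μ i = 1 → ∃ x ∈ K, ∑ i, μ i * g i x ≤ B) {ε : ℝ} (ε0 : 0 < ε) :
    ∃ x ∈ K, ∀ i, g i x < B + ε := by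
  classical
  by_contra c
  obtain ⟨f, hf⟩ := geometric_hahn_banach_open_point (s := {v : ι → ℝ | ∃ x ∈ K, ∀ i, g i x < v i}) (x := fun _ => B + ε)
    (by
      rintro u ⟨x, hx, hu⟩ v ⟨y, hy, hv⟩ s t s0 t0 e
      refine ⟨_, hK hx hy s0 t0 e, fun i => ((hg i).2 hx hy s0 t0 e).trans_lt ?_⟩
      exact convex_Ioi (𝕜 := ℝ) (0 : ℝ) (sub_pos.2 (hu i)) (sub_pos.2 (hv i)) s0 t0 e |> fun h => by
        simp only [Set.mem_Ioi, smul_eq_mul, Pi.add_apply, Pi.smul_apply] at h ⊢; linarith)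
    (by
      simp only [← exists_prop, Set.setOf_exists, Set.setOf_forall]
      exact isOpen_iUnion fun x => isOpen_iUnion fun _ => isOpen_iInter_of_finite fun i =>
        isOpen_lt continuous_const (continuous_apply i)) c
  have e : ∀ v, f v = ∑ i, v i * f (Pi.single i 1) := fun v => by
    conv_lhs => rw [pi_eq_sum_univ' v, map_sum]
    simp
  have A : ∀ i, f (Pi.single i 1) ≤ 0 := fun i => le_of_not_gt fun d => by
    have := hf ((fun j => g j x₀ + 1) + (|f (fun _ => B + ε) - f fun j => g j x₀ + 1| / f (Pi.single i 1)) • Pi.single i 1)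
      ⟨x₀, h₀, fun j => (lt_add_one _).trans_le (le_add_of_nonneg_right
        (mul_nonneg (by positivity) (by rw [Pi.single_apply]; split_ifs <;> norm_num)))⟩
    rw [map_add, map_smul, smul_eq_mul, div_mul_cancel₀ _ d.ne'] at this
    linarith [le_abs_self (f (fun _ => B + ε) - f fun j => g j x₀ + 1)]
  rcases (sum_nonpos fun i (_ : i ∈ univ) => A i).eq_or_lt with d | d
  · have := hf _ ⟨x₀, h₀, fun j => lt_add_one _⟩
    rw [e, e fun _ => _] at this
    simp [(sum_eq_zero_iff_of_nonpos fun i _ => A i).1 d] at this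
  obtain ⟨x, hx, H⟩ := h (fun i => f (Pi.single i 1) / ∑ i, f (Pi.single i 1))
    (fun i => div_nonneg_of_nonpos (A i) d.le) (by rw [← sum_div, div_self d.ne])
  have := hf (fun j => g j x + ε / 2) ⟨x, hx, fun j => by linarith⟩
  rw [e, e fun _ => _] at this
  simp only [add_mul (g _ _), sum_add_distrib, ← mul_sum, div_mul_eq_mul_div, ← sum_div, mul_comm (f _)] at this H
  rw [div_le_iff_of_neg d] at H
  nlinarith

variable {E Λ C : Type} [Fintype E] [Fintype Λ] [Fintype C] {p : ℝ}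

lemma np_mul (hp : 1 ≤ p) (s : ℝ) (y : C → ℝ) : np p (fun c => s * y c) = |s| * np p y := by
  simp only [np, abs_mul, Real.mul_rpow (abs_nonneg _) (abs_nonneg _), ← mul_sum]
  rw [Real.mul_rpow (by positivity) (by positivity), one_div, Real.rpow_rpow_inv (abs_nonneg _) (by positivity)]

lemma np_add (hp : 1 ≤ p) (x y : C → ℝ) : np p (fun c => x c + y c) ≤ np p x + np p y := Real.Lp_add_le univ x y hp

lemma np_cvx (hp : 1 ≤ p) : ConvexOn ℝ Set.univ (np p : (C → ℝ) → ℝ) := ⟨convex_univ, fun x _ y _ s t s0 t0 _ =>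
  (np_add hp (fun c => s * x c) fun c => t * y c).trans_eq (by simp [np_mul hp, abs_of_nonneg s0, abs_of_nonneg t0])⟩

lemma cvx {X Y : Type} [AddCommGroup X] [Module ℝ X] [AddCommGroup Y] [Module ℝ Y] {q : Y → ℝ} (hq : ConvexOn ℝ Set.univ q)
    (L : X → Y) (hL : ∀ (x y : X) (s t : ℝ), s + t = 1 → L (s • x + t • y) = s • L x + t • L y) {c : ℝ} (c0 : 0 ≤ c) :
    ConvexOn ℝ Set.univ fun x => c * q (L x) :=
  ConvexOn.smul c0 ⟨convex_univ, fun x _ y _ s t s0 t0 e => (congrArg q (hL x y s t e)).trans_le (hq.2 trivial trivial s0 t0 e)⟩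

def Sw (p : ℝ) (w : ℕ) : ℝ := ∑ t ∈ range (2 * w), chi w t 0 ^ p

lemma chi_sum (hp : 1 < p) {w j m : ℕ} (h : j + 2 * w ≤ m) : ∑ t : Fin m, chi w t j ^ p = Sw p w := by
  rw [Fin.sum_univ_eq_sum_range fun t => chi w t j ^ p, ← sum_subset (s₁ := Ico j (j + 2 * w))
    (fun t ht => by simp at ht ⊢; omega) fun t _ ht => by
      have : chi w t j = 0 := by by_contra d; have := chi_ne d; simp at ht; omega
      rw [this, Real.zero_rpow (by positivity)], sum_Ico_eq_sum_range, Nat.add_sub_cancel_left]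
  exact sum_congr rfl fun t _ => by simp [chi]

lemma Sw_ge (hp : 1 < p) (r : ℕ) : (r : ℝ) ^ (1 / p) * r ≤ Sw p (2 * r) ^ (1 / p) := by
  have : (r : ℝ) * r ^ p ≤ Sw p (2 * r) := by
    refine le_trans ?_ (sum_le_sum_of_subset_of_nonneg (s := Ico r (2 * r)) (fun t ht => by simp at ht ⊢; omega)
      fun _ _ _ => Real.rpow_nonneg (chi0 _ _ _) _)
    refine le_trans (by simp [two_mul]) (card_nsmul_le_sum _ _ ((r : ℝ) ^ p) fun t ht => ?_)
    rw [mem_Ico] at ht
    rify at ht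
    refine Real.rpow_le_rpow (by positivity) (le_max_of_le_right ?_) (by positivity)
    rw [abs_of_nonneg] <;> push_cast <;> linarith
  refine le_trans (le_of_eq ?_) (Real.rpow_le_rpow (by positivity) this (by positivity))
  rw [Real.mul_rpow (by positivity) (by positivity), one_div, Real.rpow_rpow_inv (by positivity) (by positivity)]

variable {z : E → Λ → ℝ} {w m : ℕ}

lemma np_Fr (hp : 1 < p) (e : E) (h : ∀ l, lev (np p (z e)) (z e l) + 2 * w ≤ m) :
    np p (Fr p z w m e) = Sw p w ^ (1 / p) * np p (z e) := by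
  have : 0 ≤ Sw p w := sum_nonneg fun _ _ => Real.rpow_nonneg (chi0 _ _ _) _
  rw [np, np, ← Real.mul_rpow this (by positivity), Fintype.sum_prod_type_right, mul_sum]
  congr 1
  refine sum_congr rfl fun l _ => ?_
  simp only [Fr, abs_mul, abs_of_nonneg (chi0 _ _ _), Real.mul_rpow (abs_nonneg _) (chi0 _ _ _), ← mul_sum]
  rw [chi_sum hp (h l), mul_comm]

lemma Fr_sup (hp : 1 < p) (e : E) (c : Fin m × Λ) : Real.exp c.1 * |Fr p z w m e c| ≤ Real.exp (p + 3 * w) * np p (z e) := by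
  have := np0 p (z e)
  by_cases h : chi w c.1 (lev (np p (z e)) (z e c.2)) = 0
  · simp only [Fr, h, mul_zero, abs_zero]; positivity
  have A := lev_le (s := -1) (p := p) (le_np hp (z e) c.2) (by simpa using hp.le)
  have B : ((c.1 : ℕ) : ℝ) ≤ lev (np p (z e)) (z e c.2) + 2 * w := by exact_mod_cast (chi_ne h).2.le
  rw [add_neg_cancel, Real.rpow_zero, mul_one, neg_neg, one_mul] at A
  rw [Fr, abs_mul, abs_of_nonneg (chi0 _ _ _)]
  calc _ ≤ Real.exp (lev (np p (z e)) (z e c.2) + 2 * w) * (|z e c.2| * Real.exp w) := by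
        have := chi0 w c.1 (lev (np p (z e)) (z e c.2))
        gcongr; exacts [(chi_le _ _ _).trans (by linarith [Real.add_one_le_exp (w : ℝ)])]
    _ = |z e c.2| * Real.exp (lev (np p (z e)) (z e c.2)) * Real.exp (3 * w) := by
        rw [show 3 * (w : ℝ) = 2 * w + w by ring, Real.exp_add, Real.exp_add]; ring
    _ ≤ _ := by rw [Real.exp_add, mul_right_comm _ _ (np _ _)]; gcongr

lemma Fr_one (hp : 1 < p) (e : E) :
    ∑ c : Fin m × Λ, Real.exp (-(p - 1) * c.1) * |Fr p z w m e c| ≤ Real.exp (p + 3 * w) * np p (z e) := by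
  have := np0 p (z e)
  rw [Fintype.sum_prod_type_right]
  conv_rhs => rw [← np_sum hp (z e), mul_sum, mul_sum]
  refine sum_le_sum fun l _ => ?_
  have A := lev_le (s := p - 1) (p := p) (le_np hp (z e) l) (by rw [abs_le]; constructor <;> linarith)
  simp only [Fr]
  generalize lev (np p (z e)) (z e l) = j at *
  refine (sum_supp (f := fun t => Real.exp (-(p - 1) * t) * |z e l * chi w t j|) (i := j) (n := 2 * w)
    (b := |z e l| * Real.exp (-(p - 1) * j) * w) (by positivity) (fun t => ?_) (fun t h => ?_) m).trans ?_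
  · by_cases h : chi w t j = 0
    · simp only [h, mul_zero, abs_zero]; positivity
    have B : (j : ℝ) ≤ t := by exact_mod_cast (chi_ne h).1.le
    rw [abs_mul, abs_of_nonneg (chi0 _ _ _), ← mul_assoc, mul_comm _ |_|]
    gcongr ?_ * Real.exp ?_ * ?_
    exacts [chi0 _ _ _, by nlinarith, chi_le _ _ _]
  · have := chi_ne (w := w) (t := t) (i := j) fun d => by simp [d] at h
    exact mem_Ioc.2 ⟨this.1, this.2.le⟩
  · rw [add_sub_cancel] at A
    calc _ ≤ Real.exp (2 * w) * (Real.exp p * np p (z e) * (|z e l| / np p (z e)) ^ p * Real.exp w) := by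
          push_cast; gcongr <;> linarith [Real.add_one_le_exp (w : ℝ), Real.add_one_le_exp (2 * w : ℝ)]
      _ = _ := by rw [show 3 * (w : ℝ) = 2 * w + w by ring, Real.exp_add, Real.exp_add]; ring

lemma avg {μ ρ q : E → ℝ} (μ0 : ∀ e, 0 ≤ μ e) (μ1 : ∑ e, μ e = 1) {b : ℝ} (b0 : 0 < b)
    (h : √(∑ e, μ e / ρ e ^ 2 * q e ^ 2) ≤ b * √(∑ e, μ e / ρ e ^ 2 * ρ e ^ 2)) : ∑ e, μ e * ((b * ρ e)⁻¹ * q e) ≤ 1 := by
  have a0 : ∀ e, 0 ≤ μ e / ρ e ^ 2 := fun e => div_nonneg (μ0 e) (sq_nonneg _)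
  have A : ∑ e, μ e / ρ e ^ 2 * ρ e ^ 2 ≤ 1 ^ 2 :=
    (sum_le_sum fun e _ => (div_mul_comm _ _ _).trans_le (mul_le_of_le_one_left (μ0 e) (div_self_le_one _))).trans (by simp [μ1])
  have B := (cs' a0 q ρ zero_le_one A).trans (mul_le_mul_of_nonneg_right
    (h.trans (mul_le_of_le_one_right b0.le (Real.sqrt_le_one.2 (by simpa using A)))) zero_le_one)
  rw [mul_one, ← div_le_one b0, sum_div] at B
  refine (sum_congr rfl fun e _ => ?_).trans_le B
  by_cases c : ρ e = 0
  · simp [c]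
  · field_simp

theorem mm (hp : 1 < p) (hp2 : p ≠ 2) {ε : ℝ} (ε0 : 0 < ε) (ε1 : ε ≤ 1) : ∃ c : ℝ, ∀ {V Λ : Type} [Fintype V] [DecidableEq V]
    [Fintype Λ] (x : Λ → V → ℝ), 2 ≤ Fintype.card V → ∃ (C : Type) (_ : Fintype C) (ν : C → ℝ) (v : C → V → ℝ) (s A : ℝ),
      0 < s ∧ 2 ≤ A ∧ Real.log (Fintype.card V) ≤ A ∧ A ≤ Real.exp (c * Real.log (Fintype.card V) ^ |1 - 2 / p|) ∧
      (∀ c, 0 ≤ ν c ∧ ν c ≤ 1) ∧ ∀ e ρ, ρ = s * np p (fun l => gr (x l) e) → 0 < ρ →
        ((1 - ε) * ρ) ^ p ≤ ∑ c, ν c * |gr (v c) e| ^ p ∧ ∑ c, ν c * |gr (v c) e| ^ p ≤ ((1 + ε) * ρ) ^ p ∧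
        (∀ c, |gr (v c) e| ≤ A * ρ) ∧ ∑ c, ν c * |gr (v c) e| ≤ A * ρ := by
  obtain ⟨g, g0, hg⟩ := band hp hp2
  set θ := |1 - 2 / p|
  have θ0 : 0 < θ := abs_pos.2 fun h => hp2 (by field_simp at h; linarith)
  refine ⟨(4 + 1 / θ + p + 6 + 96 * (g + 1) / ε) * 67 ^ θ, fun {V Λ} _ _ _ x hn => ?_⟩
  have : Nonempty V := Fintype.card_pos_iff.1 (by omega)
  set L := Real.log (Fintype.card V)
  have L0 : 1 / 2 < L := by
    have := Real.log_le_log two_pos (by exact_mod_cast hn : (2 : ℝ) ≤ Fintype.card V)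
    linarith [Real.log_two_gt_d9]
  set N := 67 * L with hN
  have N1 : 1 ≤ N ^ θ := Real.one_le_rpow (by linarith) θ0.le
  set r := ⌈16 * (g + 1) * N ^ θ / ε⌉₊
  have r1 : 16 * (g + 1) * N ^ θ / ε ≤ r := Nat.le_ceil _
  have r2 : (r : ℝ) < 16 * (g + 1) * N ^ θ / ε + 1 := Nat.ceil_lt_add_one (by positivity)
  have r0 : (1 : ℝ) ≤ r := by exact_mod_cast Nat.ceil_pos.2 (by positivity)
  let z : V × V → Λ → ℝ := fun e l => gr (x l) e
  let J := univ.sup fun x : (V × V) × Λ => lev (np p (z x.1)) (z x.1 x.2)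
  set w := 2 * r
  set m := J + 2 * w
  set b1 := N ^ θ * (2 * w : ℝ) ^ (1 / p) * (g + 1)
  set b2 := N * Real.exp (p + 3 * w)
  have w0 : (0 : ℝ) < w := by simp only [w]; push_cast; linarith
  have b10 : 0 < b1 := by positivity
  have b20 : 0 < b2 := by positivity
  have ρ0 := fun e => np0 p (z e)
  obtain ⟨Φ, -, hΦ⟩ := minimax (X := Fin m × Λ → V → ℝ) convex_univ (x₀ := 0) trivial (B := 3)
    (g := fun e Φ => (b1 * np p (z e))⁻¹ * np p (fun c => Fr p z w m e c - gr (Φ c) e) +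
      (b2 * np p (z e))⁻¹ * ‖fun c : Fin m × Λ => Real.exp c.1 * gr (Φ c) e‖ +
      (b2 * np p (z e))⁻¹ * np 1 fun c : Fin m × Λ => Real.exp (-(p - 1) * c.1) * gr (Φ c) e)
    (fun e => by
      have := ρ0 e
      refine ((cvx (np_cvx hp.le) _ (fun x y s t h => ?_) (by positivity)).add (cvx convexOn_univ_norm _ (fun x y s t h => ?_)
        (by positivity))).add (cvx (np_cvx le_rfl) _ (fun x y s t h => ?_) (by positivity)) <;> ext c <;>
        simp only [gr, Pi.add_apply, Pi.smul_apply, smul_eq_mul]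
      · linear_combination -Fr p z w m e c * h
      all_goals ring)
    (fun μ μ0 μ1 => by
      have a0 : ∀ e, 0 ≤ μ e / np p (z e) ^ 2 := fun e => div_nonneg (μ0 e) (sq_nonneg _)
      obtain ⟨φ, P1, P2, P3⟩ := exists_proj a0 (by linarith : 0 < L)
      have P4 : ∀ u : V × V → ℝ, (∀ e, 0 ≤ u e) → ∑ e, μ e / np p (z e) ^ 2 * (u e + ∑ f, |gr (φ f) e| * u f) ^ 2 ≤
          N ^ 2 * ∑ e, μ e / np p (z e) ^ 2 * u e ^ 2 := fun u u0 => by
        have A := sum_le_sum fun e (_ : e ∈ univ) => mul_le_mul_of_nonneg_left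
          (add_sq_le (a := u e) (b := ∑ f, |gr (φ f) e| * u f)) (a0 e)
        have B := sum_nonneg fun e (_ : e ∈ univ) => mul_nonneg (a0 e) (sq_nonneg (u e))
        simp only [mul_left_comm _ (2 : ℝ), mul_add (_ / _), ← mul_sum, sum_add_distrib] at A
        refine A.trans ?_
        nlinarith [P3 u u0, mul_le_mul_of_nonneg_right (by nlinarith : 2 + 2 * (32 * L) ^ 2 ≤ N ^ 2) B]
      have e1 : ∀ c e, gr (fun x => ∑ f, φ f x * Fr p z w m f c) e = ∑ f, gr (φ f) e * Fr p z w m f c := fun c e => by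
        simp only [gr, sub_mul, sum_sub_distrib]
      have P5 : ∀ q : V × V → ℝ, (∀ e, 0 ≤ q e) → (∀ e, q e ≤ ∑ f, |gr (φ f) e| * (Real.exp (p + 3 * w) * np p (z f))) →
          ∑ e, μ e * ((b2 * np p (z e))⁻¹ * q e) ≤ 1 := fun q q0 hq => avg μ0 μ1 b20 (by
        rw [← Real.sqrt_sq b20.le, ← Real.sqrt_mul (sq_nonneg _)]
        refine Real.sqrt_le_sqrt (le_trans (sum_le_sum fun e _ => ?_) ((P4 (fun f => Real.exp (p + 3 * w) * np p (z f))
          fun f => by have := ρ0 f; positivity).trans_eq ?_))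
        · have := ρ0 e
          gcongr
          exacts [a0 e, q0 e, (hq e).trans (le_add_of_nonneg_left (by positivity))]
        · simp only [b2, mul_pow, mul_left_comm (_ / _), ← mul_sum, mul_assoc])
      refine ⟨fun c x => ∑ f, φ f x * Fr p z w m f c, trivial, ?_⟩
      simp only [mul_add (μ _), sum_add_distrib, e1]
      refine (add_le_add (add_le_add (avg μ0 μ1 b10 ((hg a0 (by linarith) (fun l e => P1 (x l) e) P2 P4 w m).trans ?_))
        (P5 _ (fun _ => norm_nonneg _) fun e => ?_)) (P5 _ (fun _ => np0 _ _) fun e => ?_)).trans (by norm_num)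
      · rw [← mul_assoc]; gcongr; simp only [b1]; gcongr; linarith
      · refine (pi_norm_le_iff_of_nonneg (sum_nonneg fun f _ => by have := ρ0 f; positivity)).2 fun c => ?_
        rw [mul_sum]
        refine norm_sum_le_of_le _ fun f _ => ?_
        rw [Real.norm_eq_abs, mul_left_comm, abs_mul, abs_mul, abs_of_pos (Real.exp_pos _)]
        exact mul_le_mul_of_nonneg_left (Fr_sup hp f c) (abs_nonneg _)
      · simp only [np, Real.rpow_one, div_one, mul_sum]
        refine (sum_le_sum fun c _ => abs_sum_le_sum_abs _ _).trans (sum_comm.trans_le (sum_le_sum fun f _ => ?_))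
        simp only [mul_left_comm (Real.exp _), abs_mul, abs_of_pos (Real.exp_pos _), ← mul_sum]
        exact mul_le_mul_of_nonneg_left (Fr_one hp f) (abs_nonneg _)) one_pos
  have S1 := Sw_ge hp r
  have S2 : (1 : ℝ) ≤ r ^ (1 / p) := Real.one_le_rpow r0 (by positivity)
  set s := Sw p w ^ (1 / p)
  have s1 : 1 ≤ s := by nlinarith
  have S3 : 4 * b1 ≤ ε * s := by
    have : (2 * w : ℝ) ^ (1 / p) ≤ 4 * r ^ (1 / p) := by
      rw [show (2 * w : ℝ) = 4 * r by simp only [w]; push_cast; ring, Real.mul_rpow (by norm_num) (by positivity)]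
      gcongr
      exact Real.rpow_le_self_of_one_le (by norm_num) ((div_le_one (by positivity)).2 hp.le)
    rw [div_le_iff₀ ε0] at r1
    calc 4 * b1 ≤ 4 * (N ^ θ * (4 * r ^ (1 / p)) * (g + 1)) := by simp only [b1]; gcongr
      _ = r ^ (1 / p) * (16 * (g + 1) * N ^ θ) := by ring
      _ ≤ r ^ (1 / p) * (r * ε) := by gcongr
      _ ≤ _ := by rw [← mul_assoc, mul_comm]; gcongr
  have E1 := Real.one_le_exp (by positivity : 0 ≤ p + 3 * w)
  refine ⟨Fin m × Λ, inferInstance, fun c => Real.exp (-p * c.1), fun c x => Real.exp c.1 * Φ c x, s, 4 * b2, by positivity,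
    by simp only [b2]; nlinarith, by simp only [b2]; nlinarith, ?_, fun c => ⟨(Real.exp_pos _).le,
      Real.exp_le_one_iff.2 (by rw [neg_mul, neg_nonpos]; positivity)⟩, fun e ρ hρ ρ1 => ?_⟩
  · have N0 : 0 < N := by positivity
    have A : N ≤ Real.exp (1 / θ * N ^ θ) := by
      rw [← Real.log_le_iff_le_exp N0, one_div, ← div_eq_inv_mul]; exact Real.log_le_rpow_div N0.le θ0
    rw [mul_assoc, ← Real.mul_rpow (by norm_num) (by positivity), ← hN]
    calc 4 * b2 ≤ Real.exp 4 * (Real.exp (1 / θ * N ^ θ) * Real.exp (p + 3 * w)) := by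
          simp only [b2]; gcongr; linarith [Real.add_one_le_exp 4]
      _ ≤ _ := by
          rw [← Real.exp_add, ← Real.exp_add, Real.exp_le_exp]
          simp only [w]; push_cast
          have : 16 * (g + 1) * N ^ θ / ε * 6 = 96 * (g + 1) / ε * N ^ θ := by ring
          nlinarith
  have e1 : ∀ c : Fin m × Λ, gr (fun x => Real.exp c.1 * Φ c x) e = Real.exp c.1 * gr (Φ c) e := fun c => by simp only [gr, mul_sub]
  have ρ2 : 0 < np p (z e) := (ρ0 e).lt_of_ne fun d => by rw [hρ, ← d, mul_zero] at ρ1; exact ρ1.false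
  have H := hΦ e
  set q1 := np p fun c => Fr p z w m e c - gr (Φ c) e
  set q2 := ‖fun c : Fin m × Λ => Real.exp c.1 * gr (Φ c) e‖
  set q3 := np 1 fun c : Fin m × Λ => Real.exp (-(p - 1) * c.1) * gr (Φ c) e
  have t1 : 0 ≤ (b1 * np p (z e))⁻¹ * q1 := mul_nonneg (by positivity) (np0 _ _)
  have t2 : 0 ≤ (b2 * np p (z e))⁻¹ * q2 := by positivity
  have t3 : 0 ≤ (b2 * np p (z e))⁻¹ * q3 := mul_nonneg (by positivity) (np0 _ _)
  have u1 : q1 ≤ _ := (inv_mul_le_iff₀ (by positivity)).1 (by linarith : (b1 * np p (z e))⁻¹ * q1 ≤ 4)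
  have u2 : q2 ≤ _ := (inv_mul_le_iff₀ (by positivity)).1 (by linarith : (b2 * np p (z e))⁻¹ * q2 ≤ 4)
  have u3 : q3 ≤ _ := (inv_mul_le_iff₀ (by positivity)).1 (by linarith : (b2 * np p (z e))⁻¹ * q3 ≤ 4)
  have u4 : b2 * np p (z e) * 4 ≤ 4 * b2 * ρ := by rw [hρ]; nlinarith [mul_pos b20 ρ2]
  have u5 : q1 ≤ ε * ρ := by rw [hρ]; nlinarith
  have F1 : np p (Fr p z w m e) = ρ := hρ ▸ np_Fr hp e fun l => Nat.add_le_add_right
    (le_sup (f := fun x : (V × V) × Λ => lev (np p (z x.1)) (z x.1 x.2)) (mem_univ (e, l))) _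
  have F2 : ∑ c : Fin m × Λ, Real.exp (-p * c.1) * |Real.exp c.1 * gr (Φ c) e| ^ p = np p (fun c => gr (Φ c) e) ^ p := by
    rw [np_pow hp]
    refine sum_congr rfl fun c _ => ?_
    rw [abs_mul, Real.mul_rpow (abs_nonneg _) (abs_nonneg _), abs_of_pos (Real.exp_pos _), ← Real.exp_mul, ← mul_assoc,
      ← Real.exp_add]
    simp [mul_comm]
  have F3 := np_add hp.le (fun c => Fr p z w m e c - gr (Φ c) e) fun c => gr (Φ c) e
  have F4 := np_add hp.le (Fr p z w m e) fun c => -1 * (Fr p z w m e c - gr (Φ c) e)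
  rw [np_mul hp.le] at F4
  simp only [sub_add_cancel, neg_mul, one_mul, neg_sub, add_sub_cancel, abs_neg, abs_one, F1] at F3 F4
  simp only [e1, F2]
  refine ⟨Real.rpow_le_rpow (by nlinarith) (by linarith) (by positivity),
    Real.rpow_le_rpow (np0 _ _) (by linarith) (by positivity), fun c => (norm_le_pi_norm (fun c : Fin m × Λ =>
      Real.exp c.1 * gr (Φ c) e) c).trans (u2.trans u4), le_trans (le_of_eq ?_) (u3.trans u4)⟩
  simp only [q3, np, Real.rpow_one, div_one, abs_mul, abs_of_pos (Real.exp_pos _), ← mul_assoc, ← Real.exp_add]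
  exact sum_congr rfl fun c _ => by ring_nf

end

end Crest.Agent.H0358
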