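import Mathlib

set_option autoImplicit false
set_option linter.unusedSectionVars false
open Finset Function

namespace Crest.Agent.H0358

noncomputable section

lemma pot {Ω ι : Type} [Fintype Ω] [Nonempty Ω] [Fintype ι] {π : Ω → ℝ} (π0 : ∀ t, 0 ≤ π t) (π1 : ∑ t, π t = 1)
    {U : ι → Ω → ℝ} {η : ℝ} (η1 : η ≤ 1) (hU : ∀ i t, |U i t| ≤ η) (h0 : ∀ i, ∑ t, π t * U i t = 0) (d : ℕ) :
    ∃ ω : Fin d → Ω, ∑ i, Real.exp (∑ k, U i (ω k)) ≤ Fintype.card ι * Real.exp (d * η ^ 2) := by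
  induction d with
  | zero => exact ⟨Fin.elim0, by simp⟩
  | succ d ih =>
    obtain ⟨ω, hω⟩ := ih
    obtain ⟨t, -, ht⟩ := exists_min_image univ (fun t => ∑ i, Real.exp (U i t) * Real.exp (∑ k, U i (ω k))) univ_nonempty
    refine ⟨Fin.cons t ω, ?_⟩
    simp only [Fin.sum_univ_succ, Fin.cons_zero, Fin.cons_succ, Real.exp_add]
    have A := sum_le_sum fun s (hs : s ∈ univ) => mul_le_mul_of_nonneg_left (ht s hs) (π0 s)
    rw [← sum_mul, π1, one_mul] at A
    simp only [mul_sum, ← mul_assoc] at A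
    rw [sum_comm] at A
    refine A.trans ((sum_le_sum fun i _ => (?_ : _ ≤ Real.exp (η ^ 2) * Real.exp (∑ k, U i (ω k)))).trans ?_)
    · rw [← sum_mul]
      gcongr
      refine (sum_le_sum fun s _ => mul_le_mul_of_nonneg_left (?_ : _ ≤ U i s + Real.exp (η ^ 2)) (π0 s)).trans ?_
      · have := (abs_le.1 (Real.abs_exp_sub_one_sub_id_le ((hU i s).trans η1))).2
        linarith [Real.add_one_le_exp (η ^ 2), sq_le_sq' (abs_le.1 (hU i s)).1 (abs_le.1 (hU i s)).2]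
      · simp only [mul_add, sum_add_distrib, h0, ← sum_mul, π1]; simp
    · rw [← mul_sum]; push_cast
      rw [add_mul, Real.exp_add, one_mul, ← mul_assoc, mul_comm]; gcongr

lemma emp {Ω ι : Type} [Fintype Ω] [Nonempty Ω] [Fintype ι] {π : Ω → ℝ} (π0 : ∀ t, 0 ≤ π t) (π1 : ∑ t, π t = 1)
    {X : ι → Ω → ℝ} {M η : ℝ} (M0 : 0 < M) (η0 : 0 < η) (η1 : η ≤ 1) (hX : ∀ i t, 0 ≤ X i t ∧ X i t ≤ M) {d : ℕ}
    (hd : 2 * Fintype.card ι ≤ Real.exp (d * η ^ 2)) :
    ∃ ω : Fin d → Ω, ∀ i, |∑ k, X i (ω k) - d * ∑ t, π t * X i t| ≤ d * (2 * η * M) := by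
  have A : ∀ i t, |η / M * (X i t - ∑ t, π t * X i t)| ≤ η := fun i t => by
    have a := sum_le_sum fun s (_ : s ∈ univ) => mul_le_mul_of_nonneg_left (hX i s).2 (π0 s)
    have b := sum_nonneg fun s (_ : s ∈ univ) => mul_nonneg (π0 s) (hX i s).1
    rw [← sum_mul, π1, one_mul] at a
    rw [abs_mul, abs_of_pos (div_pos η0 M0), div_mul_eq_mul_div, div_le_iff₀ M0]
    exact mul_le_mul_of_nonneg_left (abs_le.2 ⟨by linarith [hX i t], by linarith [hX i t]⟩) η0.le
  have B : ∀ i, ∑ t, π t * (η / M * (X i t - ∑ t, π t * X i t)) = 0 := fun i => by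
    simp only [mul_left_comm (π _), ← mul_sum, mul_sub (π _), sum_sub_distrib, ← sum_mul, π1]; simp
  obtain ⟨ω, hω⟩ := pot π0 π1 (U := Sum.elim (fun i t => η / M * (X i t - ∑ t, π t * X i t))
    fun i t => -(η / M * (X i t - ∑ t, π t * X i t))) η1 (by rintro (i | i) t <;> simp [-abs_mul, A])
    (by rintro (i | i) <;> simp [B]) d
  have C := fun i => Real.exp_le_exp.1 ((single_le_sum (fun _ _ => (Real.exp_pos _).le) (mem_univ i)).trans
    (hω.trans ((mul_le_mul_of_nonneg_right (by simpa [two_mul] using hd) (Real.exp_pos _).le).trans_eq (Real.exp_add _ _).symm)))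
  refine ⟨ω, fun i => le_of_mul_le_mul_left ?_ (div_pos η0 M0)⟩
  have c1 := C (.inl i)
  have c2 := C (.inr i)
  simp only [Sum.elim_inl, Sum.elim_inr, sum_neg_distrib, ← mul_sum, sum_sub_distrib, sum_const, card_univ,
    Fintype.card_fin, nsmul_eq_mul] at c1 c2
  rw [show η / M * (d * (2 * η * M)) = d * η ^ 2 + d * η ^ 2 by field_simp; ring, ← abs_of_pos (div_pos η0 M0), ← abs_mul]
  exact abs_le.2 ⟨by linarith, c1⟩

variable {p : ℝ}

lemma ptw0 (hp : 1 < p) (y z : ℝ) : |(|y + z| ^ p - |y| ^ p - |z| ^ p)| ≤ (p + 1) * |z| * (|y| + |z|) ^ (p - 1) := by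
  have A := (convex_Icc 0 (|y| + |z|)).norm_image_sub_le_of_norm_hasDerivWithin_le (f := fun x : ℝ => x ^ p)
    (C := p * (|y| + |z|) ^ (p - 1)) (fun x _ => (Real.hasDerivAt_rpow_const (.inr hp.le)).hasDerivWithinAt)
    (fun x hx => by
      rw [Real.norm_of_nonneg (by have := hx.1; positivity)]
      gcongr; exacts [hx.1, hx.2]) (x := |y|) (y := |y + z|) ⟨abs_nonneg _, by simp⟩ ⟨abs_nonneg _, abs_add_le _ _⟩
  have B : |z| ^ p ≤ |z| * (|y| + |z|) ^ (p - 1) := by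
    rw [show p = 1 + (p - 1) by ring, Real.rpow_add' (abs_nonneg _) (by linarith), Real.rpow_one, add_sub_cancel_left]
    gcongr; simp
  have C := mul_le_mul_of_nonneg_left (abs_abs_sub_abs_le_abs_sub (y + z) y) (by positivity : 0 ≤ p * (|y| + |z|) ^ (p - 1))
  rw [add_sub_cancel_left] at C
  refine (abs_sub _ _).trans ?_
  rw [abs_of_nonneg (by positivity : 0 ≤ |z| ^ p)]
  rw [Real.norm_eq_abs, Real.norm_eq_abs] at A
  linarith

lemma ptw (hp : 1 < p) {y z W τ : ℝ} (τ0 : 0 < τ) (hy : |y| ≤ W) (hz : |z| ≤ 1) : |(|y + z| ^ p - |y| ^ p - |z| ^ p)| ≤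
    (p + 1) * |z| * ((2 * τ) ^ (p - 1) + (Real.exp (p * W) - 1) / τ) := by
  have W0 := (abs_nonneg _).trans hy
  have A : |y| * (|y| + |z|) ^ (p - 1) ≤ Real.exp (p * W) - 1 := by
    calc _ ≤ (Real.exp W - 1) * Real.exp W ^ (p - 1) := by
          gcongr <;> linarith [Real.add_one_le_exp W]
      _ ≤ _ := by
          rw [← Real.exp_mul, sub_mul, ← Real.exp_add, show W + W * (p - 1) = p * W by ring]
          linarith [Real.one_le_exp (mul_nonneg W0 (sub_pos.2 hp).le)]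
  have B := (by positivity : 0 ≤ |y| * (|y| + |z|) ^ (p - 1)).trans A
  by_cases h : |y| + |z| ≤ 2 * τ
  · refine (ptw0 hp y z).trans ?_
    gcongr
    exact le_add_of_le_of_nonneg (by gcongr) (by positivity)
  refine le_trans ?_ (mul_le_mul_of_nonneg_left (le_add_of_nonneg_of_le (by positivity)
    (div_le_div_of_nonneg_right A τ0.le)) (by positivity))
  rw [← mul_div_assoc, le_div_iff₀ τ0]
  by_cases h' : τ ≤ |z|
  · have := ptw0 hp z y
    rw [add_comm z, add_comm |z|, sub_right_comm] at this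
    exact (mul_le_mul this h' τ0.le (by positivity)).trans_eq (by ring)
  · exact (mul_le_mul (ptw0 hp y z) (by linarith : τ ≤ |y|) τ0.le (by positivity)).trans_eq (by ring)

variable {C : Type} [Fintype C] [DecidableEq C] {q : C → ℝ}

def wt (q : C → ℝ) (s t : Finset C) : ℝ := (∏ c ∈ t, q c) * ∏ c ∈ s \ t, (1 - q c)

lemma wt_ins {c : C} {s : Finset C} (h : c ∉ s) (f : Finset C → ℝ) : ∑ t ∈ (insert c s).powerset, wt q (insert c s) t * f t =
    ∑ t ∈ s.powerset, wt q s t * f t + q c * ∑ t ∈ s.powerset, wt q s t * (f (insert c t) - f t) := by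
  rw [sum_powerset_insert h, mul_sum, ← sum_add_distrib, ← sum_add_distrib]
  refine sum_congr rfl fun t ht => ?_
  have h' : c ∉ t := fun d => h (mem_powerset.1 ht d)
  rw [wt, wt, wt, insert_sdiff_of_notMem _ h', prod_insert (by simp [h]), prod_insert h', insert_sdiff_insert,
    sdiff_insert_of_notMem h]
  ring

lemma wt_exp (s : Finset C) (u : C → ℝ) : ∑ t ∈ s.powerset, wt q s t * Real.exp (∑ c ∈ t, u c) =
    ∏ c ∈ s, (q c * Real.exp (u c) + (1 - q c)) := by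
  rw [prod_add]
  exact sum_congr rfl fun t _ => by rw [wt, Real.exp_sum, prod_mul_distrib]; ring

lemma wt_one (s : Finset C) : ∑ t ∈ s.powerset, wt q s t = 1 := by simpa using wt_exp (q := q) s 0

variable (hq : ∀ c, 0 ≤ q c ∧ q c ≤ 1)
include hq

lemma wt0 (s t : Finset C) : 0 ≤ wt q s t :=
  mul_nonneg (prod_nonneg fun c _ => (hq c).1) (prod_nonneg fun c _ => sub_nonneg.2 (hq c).2)

lemma mom {z : C → ℝ} {β : ℝ} (hz : ∀ c, |z c| ≤ 1) (hβ : ∑ c, q c * |z c| ≤ β) (s : Finset C) :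
    ∑ t ∈ s.powerset, wt q s t * Real.exp (p * ∑ c ∈ t, |z c|) ≤ Real.exp (β * Real.exp p) := by
  simp only [mul_sum, wt_exp]
  refine (prod_le_prod (fun c _ => by have := hq c; nlinarith [Real.exp_pos (p * |z c|)])
    fun c _ => (?_ : _ ≤ Real.exp (q c * |z c| * Real.exp p))).trans ?_
  · have := convexOn_exp.2 (Set.mem_univ p) (Set.mem_univ 0) (abs_nonneg (z c)) (sub_nonneg.2 (hz c)) (by ring)
    simp only [smul_eq_mul, mul_zero, add_zero, Real.exp_zero, mul_one, mul_comm _ p] at this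
    nlinarith [Real.add_one_le_exp (q c * |z c| * Real.exp p), (hq c).1, mul_nonneg (hq c).1 (abs_nonneg (z c))]
  · rw [← Real.exp_sum, ← sum_mul]
    gcongr
    exact (sum_le_univ_sum_of_nonneg fun c => mul_nonneg (hq c).1 (abs_nonneg _)).trans hβ

lemma mean (hp : 1 < p) {z : C → ℝ} {β τ : ℝ} (τ0 : 0 < τ) (hz : ∀ c, |z c| ≤ 1) (hβ : ∑ c, q c * |z c| ≤ β) (s : Finset C) :
    |∑ t ∈ s.powerset, wt q s t * |∑ c ∈ t, z c| ^ p - ∑ c ∈ s, q c * |z c| ^ p| ≤
      (∑ c ∈ s, q c * |z c|) * ((p + 1) * ((2 * τ) ^ (p - 1) + (Real.exp (β * Real.exp p) - 1) / τ)) := by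
  induction s using Finset.induction_on with
  | empty => simp [Real.zero_rpow (by positivity : p ≠ 0)]
  | insert c s h ih =>
    rw [wt_ins h, sum_insert h, sum_insert h, add_comm (q c * _), add_comm (q c * _), add_sub_add_comm, add_mul, ← mul_sub,
      mul_assoc]
    refine (abs_add_le _ _).trans (add_le_add ih ?_)
    rw [abs_mul, abs_of_nonneg (hq c).1, ← one_mul (|z c| ^ p), ← wt_one (q := q) s, sum_mul, ← sum_sub_distrib]
    refine mul_le_mul_of_nonneg_left ((abs_sum_le_sum_abs _ _).trans ((sum_le_sum fun t ht => (?_ : _ ≤ wt q s t * ((p + 1) *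
      |z c| * ((2 * τ) ^ (p - 1) + (Real.exp (p * ∑ c ∈ t, |z c|) - 1) / τ)))).trans ?_)) (hq c).1
    · rw [← mul_sub, abs_mul, abs_of_nonneg (wt0 hq _ _), sum_insert fun d => h (mem_powerset.1 ht d), add_comm (z c)]
      exact mul_le_mul_of_nonneg_left (ptw hp τ0 (abs_sum_le_sum_abs _ _) (hz c)) (wt0 hq _ _)
    · simp only [mul_left_comm (wt _ _ _), ← mul_sum, mul_add (wt _ _ _), sum_add_distrib, ← mul_div_assoc (wt _ _ _),
        mul_sub (wt _ _ _), ← sum_div, sum_sub_distrib, ← sum_mul, wt_one, one_mul, mul_one]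
      rw [mul_comm (p + 1), mul_assoc]
      gcongr
      exact mom hq hz hβ s

lemma samp0 (hp : 1 < p) {E : Type} [Fintype E] {z : E → C → ℝ} {β τ T η : ℝ} (τ0 : 0 < τ) (T0 : 0 < T) (η0 : 0 < η)
    (η1 : η ≤ 1) (hz : ∀ e c, |z e c| ≤ 1) (β0 : 0 ≤ β) (hβ : ∀ e, ∑ c, q c * |z e c| ≤ β) {d : ℕ}
    (hd : 2 * Fintype.card E ≤ Real.exp (d * η ^ 2)) : ∃ ω : Fin d → Finset C, ∀ e,
      |∑ k, |∑ c ∈ ω k, z e c| ^ p - d * ∑ c, q c * |z e c| ^ p| ≤ d * (2 * η * T ^ p + Real.exp (-(p * T / 2)) *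
        (Fintype.card E * Real.exp (β * Real.exp p)) +
        β * ((p + 1) * ((2 * τ) ^ (p - 1) + (Real.exp (β * Real.exp p) - 1) / τ))) := by
  classical
  let tr : Finset C → Finset C := fun t => if ∀ e, ∑ c ∈ t, |z e c| ≤ T then t else ∅
  obtain ⟨ω, hω⟩ := emp (wt0 hq univ) (wt_one univ) (X := fun e t => |∑ c ∈ tr t, z e c| ^ p) (M := T ^ p) (by positivity)
    η0 η1 (fun e t => ⟨by positivity, by
      refine Real.rpow_le_rpow (abs_nonneg _) ((abs_sum_le_sum_abs _ _).trans ?_) (by positivity)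
      simp only [tr]; split_ifs with h
      exacts [h e, by simpa using T0.le]⟩) hd
  refine ⟨fun k => tr (ω k), fun e => (abs_sub_le _ _ _).trans ((add_le_add (hω e) ?_).trans_eq
    ((mul_add _ _ _).symm.trans (congrArg _ (add_assoc _ _ _).symm)))⟩
  rw [← mul_sub, abs_mul, Nat.abs_cast]
  refine mul_le_mul_of_nonneg_left ((abs_sub_le _ _ _).trans (add_le_add ?_ ((mean hq hp τ0 (hz e) (hβ e) univ).trans
    (mul_le_mul_of_nonneg_right (hβ e) ?_)))) (by positivity)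
  swap
  · have := sub_nonneg.2 (Real.one_le_exp (by positivity : 0 ≤ β * Real.exp p)); positivity
  rw [powerset_univ, ← sum_sub_distrib]
  refine (abs_sum_le_sum_abs _ _).trans ((sum_le_sum fun t _ => (?_ : _ ≤ wt q univ t * (Real.exp (-(p * T / 2)) *
    ∑ f, Real.exp (p * ∑ c ∈ t, |z f c|)))).trans ?_)
  · rw [← mul_sub, abs_mul, abs_of_nonneg (wt0 hq _ _)]
    refine mul_le_mul_of_nonneg_left ?_ (wt0 hq _ _)
    simp only [tr]; split_ifs with h
    · rw [sub_self, abs_zero]; positivity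
    push Not at h
    obtain ⟨f, hf⟩ := h
    obtain ⟨g, h1, h2⟩ : ∃ g, ∑ c ∈ t, |z e c| ≤ ∑ c ∈ t, |z g c| ∧ T ≤ ∑ c ∈ t, |z g c| :=
      (le_total (∑ c ∈ t, |z f c|) (∑ c ∈ t, |z e c|)).elim (fun h => ⟨e, le_rfl, hf.le.trans h⟩) fun h => ⟨f, h, hf.le⟩
    rw [sum_empty, abs_zero, Real.zero_rpow (by positivity), zero_sub, abs_neg, abs_of_nonneg (by positivity)]
    refine le_trans ?_ (mul_le_mul_of_nonneg_left (single_le_sum (f := fun f => Real.exp (p * ∑ c ∈ t, |z f c|))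
      (fun _ _ => (Real.exp_pos _).le) (mem_univ g)) (Real.exp_pos _).le)
    refine (Real.rpow_le_rpow (abs_nonneg _) ((abs_sum_le_sum_abs (z e) t).trans (h1.trans (?_ : _ ≤
      Real.exp ((∑ c ∈ t, |z g c|) / 2)))) (by positivity)).trans ?_
    · linarith [Real.two_mul_le_exp (x := (∑ c ∈ t, |z g c|) / 2)]
    · rw [← Real.exp_mul, ← Real.exp_add, Real.exp_le_exp]; nlinarith
  · simp only [mul_left_comm (wt _ _ _), ← mul_sum]
    simp only [mul_sum _ _ (wt _ _ _)]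
    rw [sum_comm]
    exact mul_le_mul_of_nonneg_left ((sum_le_card_nsmul _ _ _ fun f _ => mom hq (hz f) (hβ f) univ).trans_eq (by simp))
      (Real.exp_pos _).le

omit hq

def Poly (f : ℝ → ℝ) : Prop := ∃ k : ℝ, 0 ≤ k ∧ ∀ A, 2 ≤ A → 0 ≤ f A ∧ f A ≤ A ^ k

lemma Poly.id : Poly fun A => A := ⟨1, zero_le_one, fun A h => ⟨by linarith, by simp⟩⟩

lemma Poly.const {c : ℝ} (h : 0 ≤ c) : Poly fun _ => c := ⟨c + 1, by positivity, fun A hA => ⟨h, by
  have := one_add_mul_self_le_rpow_one_add (s := A - 1) (by linarith) (p := c + 1) (by linarith)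
  rw [add_sub_cancel] at this
  nlinarith⟩⟩

lemma Poly.mul {f g : ℝ → ℝ} (hf : Poly f) (hg : Poly g) : Poly fun A => f A * g A := by
  obtain ⟨k, k0, hk⟩ := hf
  obtain ⟨l, l0, hl⟩ := hg
  exact ⟨k + l, by positivity, fun A hA => ⟨mul_nonneg (hk A hA).1 (hl A hA).1, by
    rw [Real.rpow_add (by linarith)]; exact mul_le_mul (hk A hA).2 (hl A hA).2 (hl A hA).1 (by positivity)⟩⟩

lemma Poly.add {f g : ℝ → ℝ} (hf : Poly f) (hg : Poly g) : Poly fun A => f A + g A := by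
  obtain ⟨k, k0, hk⟩ := hf
  obtain ⟨l, l0, hl⟩ := hg
  refine ⟨k + l + 1, by positivity, fun A hA => ⟨add_nonneg (hk A hA).1 (hl A hA).1, ?_⟩⟩
  have a := Real.rpow_le_rpow_of_exponent_le (by linarith : 1 ≤ A) (le_add_of_nonneg_right l0 : k ≤ _)
  have b := Real.rpow_le_rpow_of_exponent_le (by linarith : 1 ≤ A) (le_add_of_nonneg_left k0 : l ≤ _)
  rw [Real.rpow_add_one (by linarith)]
  nlinarith [(hk A hA).2, (hl A hA).2, Real.rpow_nonneg (by linarith : 0 ≤ A) (k + l)]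

lemma Poly.rpow {f : ℝ → ℝ} (hf : Poly f) {r : ℝ} (h : 0 ≤ r) : Poly fun A => f A ^ r := by
  obtain ⟨k, k0, hk⟩ := hf
  exact ⟨k * r, by positivity, fun A hA => ⟨Real.rpow_nonneg (hk A hA).1 _, by
    rw [Real.rpow_mul (by linarith)]; exact Real.rpow_le_rpow (hk A hA).1 (hk A hA).2 h⟩⟩

theorem samp (hp : 1 < p) {ε : ℝ} (ε0 : 0 < ε) (ε1 : ε ≤ 1) : ∃ k : ℝ, 0 ≤ k ∧ ∀ {E C : Type} [Fintype E] [Fintype C]
    (ν : C → ℝ) (z : E → C → ℝ) (A : ℝ), 2 ≤ A → Fintype.card E ≤ Real.exp (2 * A) → (∀ c, 0 ≤ ν c ∧ ν c ≤ 1) →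
    (∀ e c, |z e c| ≤ A) → (∀ e, ∑ c, ν c * |z e c| ≤ A) → ∃ (d : ℕ) (ω : Fin d → Finset C) (l : ℝ), d ≤ A ^ k ∧ 0 < l ∧
      ∀ e, |∑ k, |∑ c ∈ ω k, z e c| ^ p - l * ∑ c, ν c * |z e c| ^ p| ≤ l * ε := by
  have p1 := sub_pos.2 hp
  let K : ℝ → ℝ := fun A => 4 / ε * A ^ p
  let U : ℝ → ℝ := fun A => 2 * ((p + 1) * K A) ^ (p - 1)⁻¹
  let B : ℝ → ℝ := fun A => 2 * (p + 1) * Real.exp p * K A * U A
  let T : ℝ → ℝ := fun A => 4 * A + 6 * (B A * K A)
  let H : ℝ → ℝ := fun A => 2 * T A ^ p * (B A * K A)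
  have pK : Poly K := .mul (.const (by positivity)) (.rpow .id (by positivity))
  have pU : Poly U := .mul (.const two_pos.le) (.rpow (.mul (.const (by positivity)) pK) (by positivity))
  have pB : Poly B := .mul (.mul (.const (by positivity)) pK) pU
  have pT : Poly T := .add (.mul (.const (by positivity)) .id) (.mul (.const (by positivity)) (pB.mul pK))
  have pH : Poly H := .mul (.mul (.const two_pos.le) (pT.rpow (by positivity))) (pB.mul pK)
  obtain ⟨k, k0, hk⟩ : Poly fun A => (2 * A + 1) * (H A * H A) + 1 :=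
    .add (.mul (.add (.mul (.const two_pos.le) .id) (.const one_pos.le)) (pH.mul pH)) (.const one_pos.le)
  refine ⟨k, k0, fun {E C} _ _ ν z A hA hE hν hz hs => ?_⟩
  classical
  have A0 : 0 < A := by linarith
  have a1 : 1 ≤ A ^ p := Real.one_le_rpow (by linarith) (by positivity)
  have K1 : 1 ≤ K A := one_le_mul_of_one_le_of_one_le ((one_le_div ε0).2 (by linarith)) a1
  have U1 : 1 ≤ ((p + 1) * K A) ^ (p - 1)⁻¹ := Real.one_le_rpow (by nlinarith) (by positivity)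
  have U0 : 1 ≤ U A := by simp only [U]; linarith
  have e1 := Real.one_le_exp (by positivity : 0 ≤ p)
  have B1 : Real.exp p ≤ B A := by
    simp only [B]
    nlinarith [mul_le_mul_of_nonneg_left (one_le_mul_of_one_le_of_one_le K1 U0) (by positivity : 0 ≤ 2 * (p + 1) * Real.exp p)]
  have B0 : 1 ≤ B A * K A := one_le_mul_of_one_le_of_one_le (e1.trans B1) K1
  have T1 : 1 ≤ T A := by simp only [T]; linarith
  have T2 : 1 ≤ T A ^ p := Real.one_le_rpow T1 (by positivity)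
  have H1 : 1 ≤ H A := by simp only [H]; nlinarith
  have b0 : 0 < B A := by linarith
  have b1 : (B A)⁻¹ * Real.exp p ≤ 1 := (inv_mul_le_iff₀ b0).2 (by linarith)
  set d := ⌈(2 * A + 1) * (H A * H A)⌉₊
  have d1 : (2 * A + 1) * (H A * H A) ≤ d := Nat.le_ceil _
  obtain ⟨ω, hω⟩ := samp0 (q := fun c => (B A)⁻¹ * ν c) (fun c => ⟨mul_nonneg (by positivity) (hν c).1,
    mul_le_one₀ (inv_le_one_of_one_le₀ (e1.trans B1)) (hν c).1 (hν c).2⟩) hp (z := fun e c => z e c / A) (β := (B A)⁻¹)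
    (τ := (U A)⁻¹) (T := T A) (η := (H A)⁻¹) (by positivity) (by positivity) (by positivity) (inv_le_one_of_one_le₀ H1)
    (fun e c => by rw [abs_div, abs_of_pos A0, div_le_one A0]; exact hz e c) (by positivity) (fun e => by
      simp only [abs_div, abs_of_pos A0, mul_assoc, ← mul_sum, ← mul_div_assoc, ← sum_div]
      exact (div_le_iff₀ A0).2 (mul_le_mul_of_nonneg_left (hs e) (by positivity))) (d := d) (by
      refine le_trans ?_ (Real.exp_le_exp.2 (?_ : 2 * A + 1 ≤ _))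
      · rw [Real.exp_add]; nlinarith [Real.add_one_le_exp 1, Real.exp_pos (2 * A)]
      · rwa [inv_pow, ← div_eq_mul_inv, le_div_iff₀ (by positivity), sq])
  refine ⟨d, ω, d * (B A)⁻¹, (Nat.ceil_lt_add_one (by positivity)).le.trans (hk A hA).2,
    mul_pos (lt_of_lt_of_le (by positivity) d1) (by positivity), fun e => ?_⟩
  have h := hω e
  simp only [← sum_div, abs_div, abs_of_pos A0, Real.div_rpow (abs_nonneg _) A0.le, mul_assoc (B A)⁻¹, ← mul_sum,
    ← mul_div_assoc, ← sub_div, abs_of_pos (one_pos.trans_le a1), ← mul_assoc (d : ℝ)] at h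
  rw [div_le_iff₀ (by positivity)] at h
  refine h.trans ?_
  rw [mul_assoc (d : ℝ), mul_assoc (d : ℝ)]
  refine mul_le_mul_of_nonneg_left ((le_div_iff₀ (by positivity)).1 ?_) (by positivity)
  have x1 := Real.exp_bound' (x := (B A)⁻¹ * Real.exp p) (by positivity) b1 one_pos
  have x2 : 2 * (H A)⁻¹ * T A ^ p = (B A * K A)⁻¹ := by simp only [H]; field_simp
  have x3 : (2 * (U A)⁻¹) ^ (p - 1) = ((p + 1) * K A)⁻¹ := by
    rw [show 2 * (U A)⁻¹ = (((p + 1) * K A) ^ (p - 1)⁻¹)⁻¹ by simp only [U]; field_simp, Real.inv_rpow (by positivity),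
      Real.rpow_inv_rpow (by positivity) p1.ne']
  have x4 : (Real.exp ((B A)⁻¹ * Real.exp p) - 1) / (U A)⁻¹ ≤ ((p + 1) * K A)⁻¹ := by
    rw [div_le_iff₀ (by positivity), show ((p + 1) * K A)⁻¹ * (U A)⁻¹ = 2 * ((B A)⁻¹ * Real.exp p) by
      simp only [B]; field_simp]
    norm_num at x1; linarith
  have x5 : Real.exp (-(p * T A / 2)) * (Fintype.card E * Real.exp ((B A)⁻¹ * Real.exp p)) ≤ (B A * K A)⁻¹ := by
    rw [Real.exp_neg, inv_mul_le_iff₀ (Real.exp_pos _), ← div_eq_mul_inv, le_div_iff₀ (by positivity)]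
    calc _ ≤ Real.exp (2 * A) * 3 * (B A * K A) := by gcongr; norm_num at x1; linarith
      _ ≤ Real.exp (2 * A) * Real.exp (3 * (B A * K A)) := by
          rw [mul_assoc]; gcongr; linarith [Real.add_one_le_exp (3 * (B A * K A))]
      _ ≤ _ := by rw [← Real.exp_add, Real.exp_le_exp]; simp only [T] at T1 ⊢; nlinarith
  rw [x2, x3]
  calc _ ≤ (B A * K A)⁻¹ + (B A * K A)⁻¹ + (B A)⁻¹ * ((p + 1) * (((p + 1) * K A)⁻¹ + ((p + 1) * K A)⁻¹)) := by gcongr
    _ = _ := by simp only [K]; field_simp; ring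

end

end Crest.Agent.H0358
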