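import Crest.Agent.H0358.Mm
import Crest.Agent.H0358.Samp

set_option autoImplicit false
open Finset Function MeasureTheory
open scoped ENNReal

namespace Crest.Agent.H0358

variable {p : ℝ≥0∞} [Fact (1 ≤ p)] {α : Type*} [MeasurableSpace α] {μ : Measure α}

lemma lp_pow (hp : p ≠ ⊤) (f : Lp ℝ p μ) : ‖f‖ ^ p.toReal = ∫ a, |f a| ^ p.toReal ∂μ := by
  have p0 : p ≠ 0 := (one_pos.trans_le Fact.out).ne'
  have : 0 ≤ ∫ a, ‖f a‖ ^ p.toReal ∂μ := integral_nonneg fun a => by positivity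
  rw [Lp.norm_def, (Lp.memLp f).eLpNorm_eq_integral_rpow_norm p0 hp, ENNReal.toReal_ofReal (by positivity),
    Real.rpow_inv_rpow this (ENNReal.toReal_ne_zero.2 ⟨p0, hp⟩)]
  rfl

lemma pi_pow {ι : Type} [Fintype ι] (hp : p ≠ ⊤) (y : PiLp p fun _ : ι => ℝ) : ‖y‖ ^ p.toReal = ∑ i, |y i| ^ p.toReal := by
  have p0 := ENNReal.toReal_pos (one_pos.trans_le Fact.out : 0 < p).ne' hp
  rw [PiLp.norm_eq_sum p0, one_div, Real.rpow_inv_rpow (by positivity) p0.ne']
  rfl

lemma red (hp : p ≠ ⊤) {V : Type} [Fintype V] (x : V → Lp ℝ p μ) {ε : ℝ} (ε0 : 0 < ε) :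
    ∃ (Λ : Type) (_ : Fintype Λ) (X : Λ → V → ℝ), ∀ e : V × V, 0 < ‖x e.1 - x e.2‖ ^ p.toReal →
      |∑ l, |gr (X l) e| ^ p.toReal - ‖x e.1 - x e.2‖ ^ p.toReal| ≤ ε * ‖x e.1 - x e.2‖ ^ p.toReal := by
  have p1 : p ≠ 0 := (one_pos.trans_le Fact.out).ne'
  have p0 := ENNReal.toReal_pos p1 hp
  set D : V × V → ℝ := fun e => ‖x e.1 - x e.2‖ ^ p.toReal with hD
  let Φ : (V → ℝ) → V × V → ℝ := fun u e => |gr u e| ^ p.toReal
  have sc : ∀ c u, 0 ≤ c → Φ (fun v => c ^ p.toReal⁻¹ * u v) = c • Φ u := fun c u c0 => funext fun e => by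
    simp only [Φ, gr, ← mul_sub, abs_mul, Pi.smul_apply, smul_eq_mul]
    rw [Real.mul_rpow (abs_nonneg _) (abs_nonneg _), abs_of_nonneg (by positivity), Real.rpow_inv_rpow c0 p0.ne']
  have m : ∀ (c : ℝ) u, 0 ≤ c → c • Φ u ∈ convexHull ℝ (Set.range Φ) := fun c u c0 => subset_convexHull _ _ ⟨_, sc c u c0⟩
  obtain ⟨k, hk, H⟩ := minimax (convex_convexHull ℝ _) (m 0 0 le_rfl) (B := 0)
    (g := Sum.elim (fun e k => (k e - D e) / D e) fun e k => -((k e - D e) / D e))
    (by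
      rintro (e | e) <;> refine ⟨convex_convexHull ℝ _, fun a _ b _ s t _ _ h => le_of_eq ?_⟩ <;>
        simp only [Sum.elim_inl, Sum.elim_inr, Pi.add_apply, Pi.smul_apply, smul_eq_mul]
      · linear_combination D e / D e * h
      · linear_combination -(D e / D e) * h)
    (fun w _ _ => by
      set l : V × V → ℝ := fun e => (w (.inl e) - w (.inr e)) / D e
      suffices ∃ k ∈ convexHull ℝ (Set.range Φ), ∑ e, l e * k e ≤ ∑ e, l e * D e by
        obtain ⟨k, hk, H⟩ := this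
        refine ⟨k, hk, le_trans (le_of_eq ?_) (sub_nonpos.2 H)⟩
        rw [Fintype.sum_sum_type, ← sum_add_distrib, ← sum_sub_distrib]
        exact sum_congr rfl fun e _ => by simp only [Sum.elim_inl, Sum.elim_inr, l]; ring
      rcases le_or_gt 0 (∑ e, l e * D e) with h | h
      · exact ⟨_, m 0 0 le_rfl, by simpa using h⟩
      have ae : ∀ e : V × V, (fun a => |(x e.1 - x e.2) a| ^ p.toReal) =ᵐ[μ] fun a => Φ (x · a) e := fun e => by
        filter_upwards [Lp.coeFn_sub (x e.1) (x e.2)] with a ha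
        rw [ha]; rfl
      have : ∃ u, ∑ e, l e * Φ u e < 0 := by
        by_contra! c
        refine h.not_ge ((integral_nonneg (μ := μ) fun a => c (x · a)).trans_eq ?_)
        have I : ∀ e : V × V, Integrable (fun a => Φ (x · a) e) μ := fun e =>
          (show Integrable (fun a => |(x e.1 - x e.2) a| ^ p.toReal) μ by
            simpa only [Real.norm_eq_abs] using (Lp.memLp (x e.1 - x e.2)).integrable_norm_rpow p1 hp).congr (ae e)
        rw [integral_finset_sum _ fun e _ => (I e).const_mul (l e)]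
        exact sum_congr rfl fun e _ => by rw [integral_const_mul, ← integral_congr_ae (ae e), ← lp_pow hp]
      obtain ⟨u, hu⟩ := this
      refine ⟨_, m _ u (div_pos_of_neg_of_neg h hu).le, le_of_eq ?_⟩
      simp only [Pi.smul_apply, smul_eq_mul, mul_left_comm (l _), ← mul_sum]
      exact div_mul_cancel₀ _ hu.ne) ε0
  obtain ⟨Λ, _, w, z, w0, -, hz, rfl⟩ := mem_convexHull_iff_exists_fintype.1 hk
  choose u hu using hz
  refine ⟨Λ, inferInstance, fun l v => w l ^ p.toReal⁻¹ * u l v, fun e h => ?_⟩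
  have a := H (.inl e)
  have b := H (.inr e)
  simp only [Sum.elim_inl, Sum.elim_inr, zero_add, ← neg_div, div_lt_iff₀ (show 0 < D e from h), ← hu, ← sc _ _ (w0 _),
    Finset.sum_apply] at a b
  exact abs_le.2 ⟨by linarith, a.le⟩

end Crest.Agent.H0358
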